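import Vale.Agent.P292.K.LC
import Vale.Agent.P292.K.V1

/-! # Two lines through a generic point, block N2.4: the anchor of the smoothing. -/

namespace Vale.Agent.P292

open MvPolynomial

universe u v w

section anchor

variable {R : Type u} [CommRing R] [Algebra ℂ R] {𝒜 : ℕ → Submodule ℂ R} [GradedAlgebra 𝒜]

/-- A point with values in Laurent series whose leading part is generic is generic. -/
theorem n24_injective {K : Type v} [Field K] [Algebra ℂ K] {y : R →ₐ[ℂ] K}
    (hy : Function.Injective y) (Z : R →+* LaurentSeries K)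
    (h1 : ∀ k, ∀ r ∈ 𝒜 k, (Z r).coeff (-(k : ℤ)) = y r)
    (h2 : ∀ k, ∀ r ∈ 𝒜 k, ∀ l : ℤ, l < -(k : ℤ) → (Z r).coeff l = 0) :
    Function.Injective Z := by
  classical
  rw [injective_iff_map_eq_zero]
  intro r hr
  by_contra hr0
  have hne : (DirectSum.decompose 𝒜 r).support.Nonempty := by
    rw [Finset.nonempty_iff_ne_empty]
    intro h
    apply hr0
    rw [← DirectSum.sum_support_decompose 𝒜 r, h, Finset.sum_empty]
  set k := (DirectSum.decompose 𝒜 r).support.max' hne with hk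
  have hkm : k ∈ (DirectSum.decompose 𝒜 r).support := Finset.max'_mem _ _
  have hc : (Z r).coeff (-(k : ℤ)) = y (DirectSum.decompose 𝒜 r k : R) := by
    conv_lhs => rw [← DirectSum.sum_support_decompose 𝒜 r]
    rw [map_sum, HahnSeries.coeff_sum, Finset.sum_eq_single k]
    · exact h1 k _ (DirectSum.decompose 𝒜 r k).2
    · intro j hj hjk
      have hle : j ≤ k := Finset.le_max' _ _ hj
      exact h2 j _ (DirectSum.decompose 𝒜 r j).2 _ (by omega)
    · intro h
      exact absurd hkm h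
  rw [hr, HahnSeries.coeff_zero] at hc
  have h3 : (DirectSum.decompose 𝒜 r k : R) = 0 := hy (by rw [← hc, map_zero])
  rw [DFinsupp.mem_support_iff] at hkm
  exact hkm (Subtype.ext h3)

end anchor

/-! ### the constant `b` after a linear change of the parameter -/

section reparam

theorem n24_pderiv_lcSub {K : Type v} [Field K] (a c : Fin 2 → K) (p : MvPolynomial (Fin 2) K) :
    pderiv 0 (lcSub a c p) = C (a 0) * lcSub a c (pderiv 0 p) + C (a 1) * lcSub a c (pderiv 1 p) ∧
    pderiv 1 (lcSub a c p) = C (c 0) * lcSub a c (pderiv 0 p) + C (c 1) * lcSub a c (pderiv 1 p) := by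
  induction p using MvPolynomial.induction_on with
  | C r => simp [lcSub]
  | add p q hp hq =>
    constructor
    · simp only [map_add, hp.1, hq.1]; ring
    · simp only [map_add, hp.2, hq.2]; ring
  | mul_X p i hp =>
    have hX : lcSub a c (X i) = C (a i) * X 0 + C (c i) * X 1 := by simp [lcSub]
    constructor
    · rw [map_mul, hX, Derivation.leibniz, hp.1, Derivation.leibniz, Derivation.leibniz]
      simp only [map_add, Derivation.leibniz, smul_eq_mul, pderiv_C, pderiv_X, map_mul, hX]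
      fin_cases i <;> simp <;> ring
    · rw [map_mul, hX, Derivation.leibniz, hp.2, Derivation.leibniz, Derivation.leibniz]
      simp only [map_add, Derivation.leibniz, smul_eq_mul, pderiv_C, pderiv_X, map_mul, hX]
      fin_cases i <;> simp <;> ring

variable {R : Type u} [CommRing R] [Algebra ℂ R] {𝒜 : ℕ → Submodule ℂ R} [GradedAlgebra 𝒜]
  {P : R →ₗ[ℂ] R →ₗ[ℂ] R}

/-- The constant `b` is multiplied by the determinant. -/
theorem n24_b_reparam (hX : IsContactFano 𝒜 P) {K : Type v} [Field K] [IsAlgClosed K]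
    [Algebra ℂ K] {φ ψ : R →ₐ[ℂ] MvPolynomial (Fin 2) K} (hφ : IsCurve 𝒜 2 φ)
    (hψ : IsCurve 𝒜 2 ψ) (a c : Fin 2 → K) (ha : a ≠ 0)
    (h : ∀ (r : R) (x : Fin 2 → K), eval x (ψ r) = eval (x 0 • a + x 1 • c) (φ r)) {b : K}
    (hb : omC P φ (pd φ 0) (pd φ 1) = C b) :
    omC P ψ (pd ψ 0) (pd ψ 1) = C ((a 0 * c 1 - a 1 * c 0) * b) := by
  have h1 : ∀ r, ψ r = lcSub a c (φ r) := fun r => MvPolynomial.funext fun x => by
    rw [h, eval_lcSub]
  obtain ⟨b', hb'⟩ := exists_b hX hψ
  rw [hb']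
  congr 1
  have h2 := omC_eval hX hψ (isHDer_pd hψ 0) (isHDer_pd hψ 1) ![1, 0] vec10_ne
  rw [hb', eval_C] at h2
  have h3 := omC_eval hX hφ (isHDer_pd hφ 0) (isHDer_pd hφ 1) a ha
  rw [hb, eval_C] at h3
  have hpt : pt ψ ![1, 0] = pt φ a := by
    ext r
    rw [pt_apply, pt_apply, h]
    simp
  have e0 : evL ![1, 0] (pd ψ 0) = a 0 • evL a (pd φ 0) + a 1 • evL a (pd φ 1) := by
    ext r
    rw [evL_apply, pd_apply, h1, (n24_pderiv_lcSub a c _).1]
    simp [eval_lcSub]
  have e1 : evL ![1, 0] (pd ψ 1) = c 0 • evL a (pd φ 0) + c 1 • evL a (pd φ 1) := by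
    ext r
    rw [evL_apply, pd_apply, h1, (n24_pderiv_lcSub a c _).2]
    simp [eval_lcSub]
  have hnv : IsNV 𝒜 (pt φ a) := hφ.isNV_pt ha
  have d0 : IsDer (pt φ a) (evL a (pd φ 0)) := (isHDer_pd hφ 0).der.evL a
  have d1 : IsDer (pt φ a) (evL a (pd φ 1)) := (isHDer_pd hφ 1).der.evL a
  have d0' : ∀ t : K, IsDer (pt φ a) (t • evL a (pd φ 0)) := fun t => (DerAt _).smul_mem t d0
  have d1' : ∀ t : K, IsDer (pt φ a) (t • evL a (pd φ 1)) := fun t => (DerAt _).smul_mem t d1
  have d2 : IsDer (pt φ a) (c 0 • evL a (pd φ 0) + c 1 • evL a (pd φ 1)) :=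
    (DerAt _).add_mem (d0' _) (d1' _)
  rw [← h2, hpt, e0, e1, om_add_left hX hnv (d0' _) (d1' _) d2, om_smul_left hX hnv d0 d2,
    om_smul_left hX hnv d1 d2, om_add_right hX hnv d0 (d0' _) (d1' _),
    om_add_right hX hnv d1 (d0' _) (d1' _), om_smul_right hX hnv d0 d0,
    om_smul_right hX hnv d0 d1, om_smul_right hX hnv d1 d0, om_smul_right hX hnv d1 d1,
    om_self hX hnv d0, om_self hX hnv d1,
    om_antisymm hX hnv d1 d0, h3]
  ring

end reparam

end Vale.Agent.P292
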