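import Vale.Agent.P292.Q2.Node3a
import Vale.Agent.P292.K.Q2N1
import Vale.Agent.P292.K.V1

/-! # Block N, part 3: the contact form of the smoothing does not vanish. -/

namespace Vale.Agent.P292

open MvPolynomial TensorProduct

universe u v w

section poly
variable {K : Type v} [Field K] [Algebra ℂ K]

/-- The linear coefficient of the dehomogenisation. -/
theorem n3_nwDehom_one (p : MvPolynomial (Fin 2) K) :
    (nwDehom K 0 p).coeff 1 = eval ![1, 0] (pderiv 1 p) := by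
  induction p using MvPolynomial.induction_on' with
  | monomial m c =>
    have h1 : nwDehom K 0 (monomial m c) = Polynomial.C c * Polynomial.X ^ (m 1) := by
      change MvPolynomial.aeval _ (monomial m c) = _
      rw [aeval_monomial, Finsupp.prod_fintype _ _ (fun i => by simp), Fin.prod_univ_two]
      simp [Polynomial.algebraMap_eq]
    rw [h1, Polynomial.coeff_C_mul, Polynomial.coeff_X_pow, pderiv_monomial, eval_monomial,
      Finsupp.prod_fintype _ _ (fun i => by simp), Fin.prod_univ_two]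
    rcases Nat.lt_trichotomy (m 1) 1 with h | h | h
    · have h0 : m 1 = 0 := by omega
      simp [h0]
    · simp [h]
    · have h2 : m 1 - 1 ≠ 0 := by omega
      have h3 : ¬ (1 = m 1) := by omega
      simp [h3, h2]
  | add p q hp hq => rw [map_add, Polynomial.coeff_add, hp, hq, map_add, map_add]

theorem n3_nwDehom_zero (p : MvPolynomial (Fin 2) K) :
    (nwDehom K 0 p).coeff 0 = eval ![1, 0] p := by
  induction p using MvPolynomial.induction_on' with
  | monomial m c =>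
    have h1 : nwDehom K 0 (monomial m c) = Polynomial.C c * Polynomial.X ^ (m 1) := by
      change MvPolynomial.aeval _ (monomial m c) = _
      rw [aeval_monomial, Finsupp.prod_fintype _ _ (fun i => by simp), Fin.prod_univ_two]
      simp [Polynomial.algebraMap_eq]
    rw [h1, Polynomial.coeff_C_mul, Polynomial.coeff_X_pow, eval_monomial,
      Finsupp.prod_fintype _ _ (fun i => by simp), Fin.prod_univ_two]
    rcases Nat.eq_zero_or_pos (m 1) with h | h
    · simp [h]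
    · have h3 : ¬ (0 = m 1) := by omega
      have h2 : m 1 ≠ 0 := by omega
      simp [h3, h2]
  | add p q hp hq => rw [map_add, Polynomial.coeff_add, hp, hq, map_add]

end poly

section series
variable {K : Type v} [Field K]

/-- `x ∂_x - z ∂_z` on power series. -/
noncomputable def n3Th (F : MvPowerSeries (Fin 2) K) : MvPowerSeries (Fin 2) K :=
  fun m => ((m 0 : K) - (m 1 : K)) * MvPowerSeries.coeff m F

theorem coeff_n3Th (F : MvPowerSeries (Fin 2) K) (m : Fin 2 →₀ ℕ) :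
    MvPowerSeries.coeff m (n3Th F) = ((m 0 : K) - (m 1 : K)) * MvPowerSeries.coeff m F := rfl

theorem ndSupp_n3Th {k : ℕ} {F : MvPowerSeries (Fin 2) K} (h : NdSupp k F) :
    NdSupp k (n3Th F) :=
  ⟨fun m hm => by rw [coeff_n3Th, h.1 m hm, mul_zero],
    fun m hm => by rw [coeff_n3Th, h.2 m hm, mul_zero]⟩

theorem n3_coeff_monomial_op {A : Type w} [CommRing A] (p : MvPolynomial (Fin 2) A)
    (m : Fin 2 →₀ ℕ) : coeff m (X 0 * pderiv 0 p - X 1 * pderiv 1 p) =
      ((m 0 : A) - (m 1 : A)) * coeff m p := by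
  have key : ∀ (i : Fin 2), coeff m (X i * pderiv i p) = (m i : A) * coeff m p := by
    intro i
    induction p using MvPolynomial.induction_on' with
    | monomial n c =>
      rw [pderiv_monomial, X, monomial_mul, one_mul]
      rcases Nat.eq_zero_or_pos (n i) with h | h
      · rw [h, Nat.cast_zero, mul_zero, monomial_zero, coeff_zero, coeff_monomial]
        split_ifs with h1
        · rw [← h1, h, Nat.cast_zero, zero_mul]
        · rw [mul_zero]
      · have h2 : Finsupp.single i 1 + (n - Finsupp.single i 1) = n := by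
          ext j
          rw [Finsupp.add_apply, Finsupp.tsub_apply, Finsupp.single_apply]
          split_ifs with h3
          · subst h3; omega
          · omega
        rw [h2, coeff_monomial, coeff_monomial]
        split_ifs with h1
        · rw [← h1, mul_comm]
        · rw [mul_zero]
    | add p q hp hq => rw [map_add, mul_add, coeff_add, hp, hq, coeff_add]; ring
  rw [coeff_sub, key, key]
  ring

theorem n3_ndForm_th (k : ℕ) (F : MvPowerSeries (Fin 2) K) :
    X 0 * pderiv 0 (ndForm k F) - X 1 * pderiv 1 (ndForm k F) = 2 * ndForm k (n3Th F) := by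
  have h2 : (2 : MvPolynomial (Fin 2) (PowerSeries K)) = C 2 := by
    rw [show (2 : PowerSeries K) = ((2 : ℕ) : PowerSeries K) by norm_num]
    rw [map_natCast]; norm_num
  ext m : 1
  rw [n3_coeff_monomial_op, h2, coeff_C_mul, ndForm, ndForm, coeff_sum, coeff_sum,
    Finset.mul_sum, Finset.mul_sum]
  refine Finset.sum_congr rfl fun i hi => ?_
  rw [Finset.mem_range] at hi
  rw [coeff_monomial, coeff_monomial]
  split_ifs with h
  · have hm0 : m 0 = i := by rw [← h]; simp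
    have hm1 : m 1 = 2 * k - i := by rw [← h]; simp
    ext N
    have e1 : ((m 0 : PowerSeries K) - (m 1 : PowerSeries K)) = PowerSeries.C ((m 0 : K) - (m 1 : K)) := by
      simp
    have e2 : (2 : PowerSeries K) = PowerSeries.C 2 := (map_ofNat PowerSeries.C 2).symm
    rw [e1, e2, PowerSeries.coeff_C_mul, PowerSeries.coeff_C_mul, PowerSeries.coeff_mk,
      PowerSeries.coeff_mk, Finset.mul_sum, Finset.mul_sum]
    refine Finset.sum_congr rfl fun p hp => ?_
    split_ifs with h3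
    · rw [coeff_n3Th, hm0, hm1]
      have h4 : (i : K) - ((2 * k - i : ℕ) : K) = 2 * ((p.1 : K) - (p.2 : K)) := by
        rw [Nat.cast_sub (by omega)]
        have h5 : (k : K) + (p.1 : K) = (i : K) + (p.2 : K) := by
          have := congrArg (Nat.cast : ℕ → K) h3
          push_cast at this
          exact this
        push_cast
        linear_combination 2 * (-h5)
      rw [h4]
      have h5 : ((Finsupp.single 0 p.1 + Finsupp.single 1 p.2 : Fin 2 →₀ ℕ) 0) = p.1 := by simp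
      have h6 : ((Finsupp.single 0 p.1 + Finsupp.single 1 p.2 : Fin 2 →₀ ℕ) 1) = p.2 := by simp
      rw [h5, h6]
      ring
    · rw [mul_zero, mul_zero]
  · rw [mul_zero, mul_zero]

theorem n3_ndForm_add (k : ℕ) (F G : MvPowerSeries (Fin 2) K) :
    ndForm k (F + G) = ndForm k F + ndForm k G := by
  rw [ndForm, ndForm, ndForm, ← Finset.sum_add_distrib]
  refine Finset.sum_congr rfl fun i _ => ?_
  rw [← map_add]
  congr 1
  ext N
  rw [map_add, PowerSeries.coeff_mk, PowerSeries.coeff_mk, PowerSeries.coeff_mk,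
    ← Finset.sum_add_distrib]
  refine Finset.sum_congr rfl fun p _ => ?_
  split_ifs
  · rw [map_add]
  · rw [add_zero]

theorem n3_ndForm_zero (k : ℕ) : ndForm k (0 : MvPowerSeries (Fin 2) K) = 0 := by
  have := n3_ndForm_add k (0 : MvPowerSeries (Fin 2) K) 0
  rw [add_zero] at this
  exact left_eq_add.mp this

theorem n3_ndForm_sum {ι : Type*} (s : Finset ι) (k : ℕ) (F : ι → MvPowerSeries (Fin 2) K) :
    ndForm k (∑ i ∈ s, F i) = ∑ i ∈ s, ndForm k (F i) := by
  classical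
  induction s using Finset.induction_on with
  | empty => rw [Finset.sum_empty, Finset.sum_empty, n3_ndForm_zero]
  | insert a s ha ih => rw [Finset.sum_insert ha, Finset.sum_insert ha, n3_ndForm_add, ih]

/-- The coefficient of `x z` in `F θ G`. -/
theorem n3_coeff_mul_th (F G : MvPowerSeries (Fin 2) K) :
    MvPowerSeries.coeff (Finsupp.single 0 1 + Finsupp.single 1 1) (F * n3Th G) =
      MvPowerSeries.coeff (Finsupp.single 1 1) F * MvPowerSeries.coeff (Finsupp.single 0 1) G -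
      MvPowerSeries.coeff (Finsupp.single 0 1) F * MvPowerSeries.coeff (Finsupp.single 1 1) G := by
  classical
  rw [MvPowerSeries.coeff_mul]
  have h : Finset.HasAntidiagonal.antidiagonal (Finsupp.single 0 1 + Finsupp.single 1 1 : Fin 2 →₀ ℕ) =
      {((0 : Fin 2 →₀ ℕ), (Finsupp.single 0 1 + Finsupp.single 1 1 : Fin 2 →₀ ℕ)),
        (Finsupp.single 0 1, Finsupp.single 1 1), (Finsupp.single 1 1, Finsupp.single 0 1),
        (Finsupp.single 0 1 + Finsupp.single 1 1, 0)} := by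
    ext ⟨a, b⟩
    rw [Finset.HasAntidiagonal.mem_antidiagonal]
    simp only [Finset.mem_insert, Finset.mem_singleton, Prod.mk.injEq]
    constructor
    · intro hab
      have h0 : a 0 + b 0 = 1 := by
        have := DFunLike.congr_fun hab 0
        simpa using this
      have h1 : a 1 + b 1 = 1 := by
        have := DFunLike.congr_fun hab 1
        simpa using this
      have hc : ∀ (f : Fin 2 →₀ ℕ), f = Finsupp.single 0 (f 0) + Finsupp.single 1 (f 1) := by
        intro f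
        ext i
        fin_cases i <;> simp
      rcases Nat.eq_zero_or_pos (a 0) with ha0 | ha0 <;>
      rcases Nat.eq_zero_or_pos (a 1) with ha1 | ha1
      · left
        have hb0 : b 0 = 1 := by omega
        have hb1 : b 1 = 1 := by omega
        exact ⟨by rw [hc a, ha0, ha1]; simp, by rw [hc b, hb0, hb1]⟩
      · right; right; left
        have ha1' : a 1 = 1 := by omega
        have hb0 : b 0 = 1 := by omega
        have hb1 : b 1 = 0 := by omega
        exact ⟨by rw [hc a, ha0, ha1']; simp, by rw [hc b, hb0, hb1]; simp⟩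
      · right; left
        have ha0' : a 0 = 1 := by omega
        have hb0 : b 0 = 0 := by omega
        have hb1 : b 1 = 1 := by omega
        exact ⟨by rw [hc a, ha0', ha1]; simp, by rw [hc b, hb0, hb1]; simp⟩
      · right; right; right
        have ha0' : a 0 = 1 := by omega
        have ha1' : a 1 = 1 := by omega
        have hb0 : b 0 = 0 := by omega
        have hb1 : b 1 = 0 := by omega
        exact ⟨by rw [hc a, ha0', ha1'], by rw [hc b, hb0, hb1]; simp⟩
    · rintro (⟨rfl, rfl⟩ | ⟨rfl, rfl⟩ | ⟨rfl, rfl⟩ | ⟨rfl, rfl⟩)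
      · rw [zero_add]
      · rfl
      · rw [add_comm]
      · rw [add_zero]
  have d1 : (Finsupp.single 0 1 : Fin 2 →₀ ℕ) ≠ Finsupp.single 1 1 := fun h => by
    have := DFunLike.congr_fun h 0
    simp at this
  have d2 : (Finsupp.single 0 1 + Finsupp.single 1 1 : Fin 2 →₀ ℕ) ≠ 0 := fun h => by
    have := DFunLike.congr_fun h 0
    simp at this
  have d3 : (Finsupp.single 0 1 : Fin 2 →₀ ℕ) ≠ 0 := fun h => by
    have := DFunLike.congr_fun h 0
    simp at this
  have d4 : (Finsupp.single 1 1 : Fin 2 →₀ ℕ) ≠ 0 := fun h => by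
    have := DFunLike.congr_fun h 1
    simp at this
  have d5 : (Finsupp.single 0 1 + Finsupp.single 1 1 : Fin 2 →₀ ℕ) ≠ Finsupp.single 0 1 := fun h => by
    have := DFunLike.congr_fun h 1
    simp at this
  have d6 : (Finsupp.single 0 1 + Finsupp.single 1 1 : Fin 2 →₀ ℕ) ≠ Finsupp.single 1 1 := fun h => by
    have := DFunLike.congr_fun h 0
    simp at this
  rw [h, Finset.sum_insert (by simp [d2.symm, d3.symm, d4.symm]),
    Finset.sum_insert (by simp [d1, d5.symm]), Finset.sum_insert (by simp [d6.symm]),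
    Finset.sum_singleton]
  simp only [coeff_n3Th]
  simp
  ring

end series

section final
variable {R : Type u} [CommRing R] [Algebra ℂ R] {𝒜 : ℕ → Submodule ℂ R} [GradedAlgebra 𝒜]
  {P : R →ₗ[ℂ] R →ₗ[ℂ] R}

/-- Lines are isotropic. -/
theorem n3_line (hX : IsContactFano 𝒜 P) {K : Type v} [Field K] [IsAlgClosed K] [Algebra ℂ K]
    {ψ : R →ₐ[ℂ] MvPolynomial (Fin 2) K} (h : IsCurve 𝒜 1 ψ) :
    om P (pt ψ ![1, 0]) (evL ![1, 0] (pd ψ 1)) ((pt ψ ![1, 0]).toLinearMap ∘ₗ euler 𝒜) = 0 := by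
  have h0 : omC P ψ (pd ψ 1) (pd ψ 0) = 0 :=
    omC_eq_zero hX h (isHDer_pd h 1) (isHDer_pd h 0) (by norm_num)
  have h1 := omC_eval hX h (isHDer_pd h 1) (isHDer_pd h 0) ![1, 0] vec10_ne
  rw [h0, map_zero] at h1
  have h2 : (evL ![1, 0] (pd ψ 0) : R →ₗ[ℂ] K) = (pt ψ ![1, 0]).toLinearMap ∘ₗ euler 𝒜 := by
    ext r
    rw [mm_evL_pd_zero h]
    simp
  rwa [h2] at h1

/-- A conic on which the contact form vanishes. -/
theorem n3_conic (hX : IsContactFano 𝒜 P) {Ω : Type w} [Field Ω] [IsAlgClosed Ω] [Algebra ℂ Ω]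
    {φ : R →ₐ[ℂ] MvPolynomial (Fin 2) Ω} (hc : IsCurve 𝒜 2 φ)
    (hb : omC P φ (pd φ 0) (pd φ 1) = 0) {N : ℕ} {x h : Fin N → R} {g : R}
    (hid : ∀ s, g * euler 𝒜 s = ∑ l, h l * P (x l) s) :
    ∑ l, φ (h l) * (X 0 * pderiv 0 (φ (x l)) - X 1 * pderiv 1 (φ (x l))) = 0 := by
  set j : MvPolynomial (Fin 2) Ω →ₐ[ℂ] FractionRing (MvPolynomial (Fin 2) Ω) :=
    IsScalarTower.toAlgHom ℂ (MvPolynomial (Fin 2) Ω) (FractionRing (MvPolynomial (Fin 2) Ω))
    with hj
  have hjinj : Function.Injective j :=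
    IsFractionRing.injective (MvPolynomial (Fin 2) Ω) (FractionRing (MvPolynomial (Fin 2) Ω))
  have hnv : IsNV 𝒜 (j.comp φ) := c1_isNV_gen hc j hjinj
  have h0 := omC_frac hX hc (isHDer_pd hc 0).der (isHDer_pd hc 1).der
  rw [hb, map_zero] at h0
  set δ₀ : R →ₗ[ℂ] FractionRing (MvPolynomial (Fin 2) Ω) := j.toLinearMap ∘ₗ pd φ 0 with hδ₀
  set δ₁ : R →ₗ[ℂ] FractionRing (MvPolynomial (Fin 2) Ω) := j.toLinearMap ∘ₗ pd φ 1 with hδ₁
  have hd0 : IsDer (j.comp φ) δ₀ := c1_isDer_comp (isHDer_pd hc 0).der j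
  have hd1 : IsDer (j.comp φ) δ₁ := c1_isDer_comp (isHDer_pd hc 1).der j
  have hT : IsDer (j.comp φ) (j (X 0) • δ₀ - j (X 1) • δ₁) :=
    (DerAt (j.comp φ)).sub_mem ((DerAt (j.comp φ)).smul_mem _ hd0)
      ((DerAt (j.comp φ)).smul_mem _ hd1)
  have hE : IsDer (j.comp φ) ((j.comp φ).toLinearMap ∘ₗ euler 𝒜) := fun r s => by
    simp only [LinearMap.comp_apply, AlgHom.toLinearMap_apply, euler_mul, map_add, map_mul]
    ring
  have hS : IsDer (j.comp φ) (j (X 0) • δ₀ + j (X 1) • δ₁) :=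
    (DerAt (j.comp φ)).add_mem ((DerAt (j.comp φ)).smul_mem _ hd0)
      ((DerAt (j.comp φ)).smul_mem _ hd1)
  have hsum : (2 : FractionRing (MvPolynomial (Fin 2) Ω)) •
      ((j.comp φ).toLinearMap ∘ₗ euler 𝒜) = j (X 0) • δ₀ + j (X 1) • δ₁ := by
    refine mm_ext (𝒜 := 𝒜) fun k r hr => ?_
    have h1 := congrArg j (hc.degree k r hr).sum_X_mul_pderiv
    rw [Fin.sum_univ_two, map_add, map_mul, map_mul] at h1
    simp only [LinearMap.smul_apply, LinearMap.add_apply, LinearMap.comp_apply,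
      AlgHom.toLinearMap_apply, smul_eq_mul, hδ₀, hδ₁, pd_apply]
    rw [h1, euler_apply k r hr, map_smul, AlgHom.comp_apply, map_nsmul, nsmul_eq_mul,
      Algebra.smul_def]
    simp only [map_natCast]
    push_cast
    ring
  have h01 : om P (j.comp φ) δ₀ δ₁ = 0 := h0.symm
  have h10 : om P (j.comp φ) δ₁ δ₀ = 0 := by rw [om_antisymm hX hnv hd1 hd0, h01, neg_zero]
  have hz : om P (j.comp φ) (j (X 0) • δ₀ + j (X 1) • δ₁) (j (X 0) • δ₀ - j (X 1) • δ₁) = 0 := by
    have s0 := (DerAt (j.comp φ)).smul_mem (j (X 0)) hd0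
    have s1 := (DerAt (j.comp φ)).smul_mem (j (X 1)) hd1
    rw [om_add_left hX hnv s0 s1 hT, om_smul_left hX hnv hd0 hT, om_smul_left hX hnv hd1 hT,
      om_sub_right hX hnv hd0 s0 s1, om_sub_right hX hnv hd1 s0 s1,
      om_smul_right hX hnv hd0 hd0, om_smul_right hX hnv hd0 hd1, om_smul_right hX hnv hd1 hd0,
      om_smul_right hX hnv hd1 hd1, om_self hX hnv hd0, om_self hX hnv hd1, h01, h10]
    ring
  rw [← hsum, om_smul_left hX hnv hE hT] at hz
  have hchar : CharZero (FractionRing (MvPolynomial (Fin 2) Ω)) :=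
    charZero_of_injective_algebraMap
      (algebraMap ℂ (FractionRing (MvPolynomial (Fin 2) Ω))).injective
  have hz' := (mul_eq_zero.mp hz).resolve_left two_ne_zero
  have hrep : ∀ s, ((j.comp φ) g • ((j.comp φ).toLinearMap ∘ₗ euler 𝒜)) s =
      ∑ l, (j.comp φ) (h l) * (j.comp φ) (P (x l) s) := by
    intro s
    have := congrArg (j.comp φ) (hid s)
    rw [map_mul, map_sum] at this
    simp only [LinearMap.smul_apply, LinearMap.comp_apply, AlgHom.toLinearMap_apply, smul_eq_mul]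
    rw [this]
    exact Finset.sum_congr rfl fun l _ => map_mul _ _ _
  have h3 := om_eq hX hnv hT hrep
  rw [om_smul_left hX hnv hE hT, hz', mul_zero] at h3
  apply hjinj
  rw [map_zero, h3, map_sum]
  refine Finset.sum_congr rfl fun l _ => ?_
  rw [map_mul, map_sub, map_mul, map_mul]
  rfl

/-- N2.3: the contact form of the smoothing does not vanish. -/
theorem nd_omC_ne' (hX : IsContactFano 𝒜 P) {K : Type v} [Field K] [IsAlgClosed K] [Algebra ℂ K]
    (hmul : ∀ (k l : ℕ) (F G : MvPowerSeries (Fin 2) K), NdSupp k F → NdSupp l G →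
      ndForm (k + l) (F * G) = ndForm k F * ndForm l G)
    (hcoeff : ∀ (k : ℕ) (F : MvPowerSeries (Fin 2) K) (m : Fin 2 →₀ ℕ), m 0 ≤ m 1 + k →
      m 1 ≤ m 0 + k → PowerSeries.coeff (m 0 + m 1) (coeff (ndExp k m) (ndForm k F)) =
        MvPowerSeries.coeff m F)
    {ψ₁ ψ₂ : R →ₐ[ℂ] MvPolynomial (Fin 2) K}
    (h₁ : IsCurve 𝒜 1 ψ₁) (h₂ : IsCurve 𝒜 1 ψ₂) (heq : pt ψ₁ ![1, 0] = pt ψ₂ ![1, 0])
    (hom : om P (pt ψ₁ ![1, 0]) (evL ![1, 0] (pd ψ₁ 1)) (evL ![1, 0] (pd ψ₂ 1)) ≠ 0)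
    {Φ : R →ₐ[ℂ] MvPowerSeries (Fin 2) K} (h : ∀ k, ∀ r ∈ 𝒜 k, NdSupp k (Φ r))
    (hax1 : ∀ r i, MvPowerSeries.coeff (Finsupp.single 0 i) (Φ r) = (nwDehom K 0 (ψ₁ r)).coeff i)
    (hax2 : ∀ r i, MvPowerSeries.coeff (Finsupp.single 1 i) (Φ r) = (nwDehom K 0 (ψ₂ r)).coeff i)
    {φ : R →ₐ[ℂ] MvPolynomial (Fin 2) (PowerSeries K)} (hφ : ∀ k, ∀ r ∈ 𝒜 k, φ r = ndForm k (Φ r))
    {Ω : Type w} [Field Ω] [IsAlgClosed Ω] [Algebra ℂ Ω] (ι : PowerSeries K →ₐ[ℂ] Ω)
    (hι : Function.Injective ι) (hc : IsCurve 𝒜 2 ((mapAlgHom ι).comp φ)) {b : Ω}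
    (hb : omC P ((mapAlgHom ι).comp φ) (pd ((mapAlgHom ι).comp φ) 0)
      (pd ((mapAlgHom ι).comp φ) 1) = C b) : b ≠ 0 := by
  rintro rfl
  rw [map_zero] at hb
  have hν : IsNV 𝒜 (pt ψ₁ ![1, 0]) := c1_isNV_pt h₁ _ vec10_ne
  obtain ⟨N, G, x, d, a, e, g, hx, ha, hed, hgG, hg, hid⟩ := n3_exists hX hν
  have hd1 : IsDer (pt ψ₁ ![1, 0]) (evL ![1, 0] (pd ψ₁ 1)) := IsDer.evL (isHDer_pd h₁ 1).der ![1, 0]
  have hd2 : IsDer (pt ψ₁ ![1, 0]) (evL ![1, 0] (pd ψ₂ 1)) := by
    rw [heq]; exact IsDer.evL (isHDer_pd h₂ 1).der ![1, 0]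
  have hl2 := n3_line hX h₂
  rw [← heq] at hl2
  have hp := n3_pair hX hν hid hd1 hd2 (n3_line hX h₁) hl2
  have hz := n3_conic hX hc hb hid
  -- the relation over `K⟦q⟧`
  have hz1 : ∑ l, φ (a l) * (X 0 * pderiv 0 (φ (x l)) - X 1 * pderiv 1 (φ (x l))) = 0 := by
    apply map_injective (ι : PowerSeries K →+* Ω) hι
    rw [map_zero, ← hz, map_sum]
    refine Finset.sum_congr rfl fun l _ => ?_
    rw [map_mul, map_sub, map_mul, map_mul, map_X, map_X, ← pderiv_map, ← pderiv_map]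
    rfl
  have hz2 : ndForm (G + 1) (∑ l, Φ (a l) * n3Th (Φ (x l))) = 0 := by
    have h2 : (2 : MvPolynomial (Fin 2) (PowerSeries K)) * ndForm (G + 1)
        (∑ l, Φ (a l) * n3Th (Φ (x l))) = 0 := by
      rw [← hz1, n3_ndForm_sum, Finset.mul_sum]
      refine Finset.sum_congr rfl fun l _ => ?_
      rw [hφ _ _ (hx l), n3_ndForm_th, hφ _ _ (ha l), ← hed l,
        hmul _ _ _ _ (h _ _ (ha l)) (ndSupp_n3Th (h _ _ (hx l)))]
      ring
    have hchar : CharZero K := charZero_of_injective_algebraMap (algebraMap ℂ K).injective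
    have h3 : (2 : MvPolynomial (Fin 2) (PowerSeries K)) ≠ 0 := by
      have h4 : (2 : MvPolynomial (Fin 2) (PowerSeries K)) = C (PowerSeries.C 2) := by
        rw [map_ofNat, map_ofNat]
      rw [h4]
      intro h5
      rw [map_eq_zero_iff _ (C_injective _ _)] at h5
      have h6 := congrArg (PowerSeries.coeff 0) h5
      rw [PowerSeries.coeff_zero_C, map_zero] at h6
      exact two_ne_zero h6
    exact (mul_eq_zero.mp h2).resolve_left h3
  have hz3 : MvPowerSeries.coeff (Finsupp.single 0 1 + Finsupp.single 1 1)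
      (∑ l, Φ (a l) * n3Th (Φ (x l))) = 0 := by
    rw [← hcoeff (G + 1) _ _ (by simp) (by simp), hz2]
    simp
  rw [map_sum] at hz3
  apply hom
  have hv1 : ∀ r, MvPowerSeries.coeff (Finsupp.single 0 1) (Φ r) = evL ![1, 0] (pd ψ₁ 1) r :=
    fun r => by rw [hax1, n3_nwDehom_one, evL_apply, pd_apply]
  have hv2 : ∀ r, MvPowerSeries.coeff (Finsupp.single 1 1) (Φ r) = evL ![1, 0] (pd ψ₂ 1) r :=
    fun r => by rw [hax2, n3_nwDehom_one, evL_apply, pd_apply]
  have hp' : (pt ψ₁ ![1, 0]) g * om P (pt ψ₁ ![1, 0]) (evL ![1, 0] (pd ψ₁ 1))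
      (evL ![1, 0] (pd ψ₂ 1)) = 0 := by
    rw [hp, ← neg_eq_zero, ← Finset.sum_neg_distrib]
    refine Eq.trans (Finset.sum_congr rfl fun l _ => ?_) hz3
    rw [n3_coeff_mul_th, hv1, hv2, hv1, hv2]
    ring
  exact (mul_eq_zero.mp hp').resolve_left hg

/-- N2.3 (note 9822): the contact form of the smoothing does not vanish. -/
theorem nd_omC_ne (hX : IsContactFano 𝒜 P) {K : Type v} [Field K] [IsAlgClosed K] [Algebra ℂ K]
    {ψ₁ ψ₂ : R →ₐ[ℂ] MvPolynomial (Fin 2) K}
    (h₁ : IsCurve 𝒜 1 ψ₁) (h₂ : IsCurve 𝒜 1 ψ₂) (heq : pt ψ₁ ![1, 0] = pt ψ₂ ![1, 0])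
    (hom : om P (pt ψ₁ ![1, 0]) (evL ![1, 0] (pd ψ₁ 1)) (evL ![1, 0] (pd ψ₂ 1)) ≠ 0)
    {Φ : R →ₐ[ℂ] MvPowerSeries (Fin 2) K} (h : ∀ k, ∀ r ∈ 𝒜 k, NdSupp k (Φ r))
    (hax1 : ∀ r i, MvPowerSeries.coeff (Finsupp.single 0 i) (Φ r) = (nwDehom K 0 (ψ₁ r)).coeff i)
    (hax2 : ∀ r i, MvPowerSeries.coeff (Finsupp.single 1 i) (Φ r) = (nwDehom K 0 (ψ₂ r)).coeff i)
    {φ : R →ₐ[ℂ] MvPolynomial (Fin 2) (PowerSeries K)} (hφ : ∀ k, ∀ r ∈ 𝒜 k, φ r = ndForm k (Φ r))
    {Ω : Type w} [Field Ω] [IsAlgClosed Ω] [Algebra ℂ Ω] (ι : PowerSeries K →ₐ[ℂ] Ω)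
    (hι : Function.Injective ι) (hc : IsCurve 𝒜 2 ((mapAlgHom ι).comp φ)) {b : Ω}
    (hb : omC P ((mapAlgHom ι).comp φ) (pd ((mapAlgHom ι).comp φ) 0)
      (pd ((mapAlgHom ι).comp φ) 1) = C b) : b ≠ 0 :=
  nd_omC_ne' hX (fun _ _ _ _ hF hG => ndForm_mul hF hG) (fun _ F m h0 h1 => coeff_ndForm F m h0 h1)
    h₁ h₂ heq hom h hax1 hax2 hφ ι hι hc hb

end final

end Vale.Agent.P292
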