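import Vale.Agent.P292.Meet.Conic
import Vale.Agent.P292.K.Q2Defs

/-! # A conic through a generic point which lies on no line does not move with fixed end points:
its coefficients are algebraic over the field of its end points. -/

namespace Vale.Agent.P292

open MvPolynomial

universe u v w

/-- An element which is transcendental over `K` is a pole of a place which is trivial on `K`. -/
theorem e2_exists_valuation {K : Type w} [Field K] {Ω : Type v} [Field Ω] [Algebra K Ω] {a : Ω}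
    (ha : Transcendental K a) : ∃ O : ValuationSubring Ω, 1 < O.valuation a ∧
      ∀ c : K, c ≠ 0 → O.valuation (algebraMap K Ω c) = 1 := by
  have ha0 : a ≠ 0 := by
    intro h0
    exact ha (by rw [h0]; exact isAlgebraic_zero)
  have hainv : Transcendental K a⁻¹ := by
    intro h
    exact ha (by simpa using h.inv)
  obtain ⟨O, hO⟩ := exists_valuationSubring_prime
    ((Polynomial.aeval a⁻¹ : Polynomial K →ₐ[K] Ω) : Polynomial K →+* Ω)
    (transcendental_iff_injective.1 hainv) (Ideal.span {(Polynomial.X : Polynomial K)})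
    (h𝔭 := (Ideal.span_singleton_prime Polynomial.X_ne_zero).2 Polynomial.prime_X)
  have hv1 : O.valuation a⁻¹ < 1 := by
    have h1 := ((hO Polynomial.X).2).1 (Ideal.mem_span_singleton_self _)
    have h2 : ((Polynomial.aeval a⁻¹ : Polynomial K →ₐ[K] Ω) : Polynomial K →+* Ω)
        Polynomial.X = a⁻¹ := Polynomial.aeval_X _
    rwa [h2] at h1
  have hKle : ∀ c : K, O.valuation (algebraMap K Ω c) ≤ 1 := by
    intro c
    have h1 := (hO (Polynomial.C c)).1
    have h2 : ((Polynomial.aeval a⁻¹ : Polynomial K →ₐ[K] Ω) : Polynomial K →+* Ω)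
        (Polynomial.C c) = algebraMap K Ω c := Polynomial.aeval_C _ _
    rw [h2] at h1
    exact (O.valuation_le_one_iff _).2 h1
  refine ⟨O, ?_, fun c hc => ?_⟩
  · rw [map_inv₀] at hv1
    have h2 : O.valuation a ≠ 0 := by
      rw [Ne, Valuation.zero_iff]
      exact ha0
    exact (inv_lt_one₀ (zero_lt_iff.2 h2)).1 hv1
  · refine le_antisymm (hKle c) ?_
    have h1 := hKle c⁻¹
    rw [map_inv₀, map_inv₀] at h1
    have h2 : O.valuation (algebraMap K Ω c) ≠ 0 := by
      rw [Ne, Valuation.zero_iff]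
      exact fun h => hc ((algebraMap K Ω).injective (by rw [h, map_zero]))
    exact (inv_le_one₀ (zero_lt_iff.2 h2)).1 h1

variable {R : Type u} [CommRing R] [Algebra ℂ R] {𝒜 : ℕ → Submodule ℂ R} [GradedAlgebra 𝒜]
  {P : R →ₗ[ℂ] R →ₗ[ℂ] R}

/-- The coefficients of a conic, one of whose end points is generic, are algebraic over the field
of its end points, if no line passes through a generic point. The end points are different points
of `Proj R`. -/
theorem isAlgebraic_coeff_of_noLines' (hX : IsContactFano 𝒜 P)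
    {Ω : Type v} [Field Ω] [IsAlgClosed Ω] [Algebra ℂ Ω]
    (hno : ∀ (κ : Type v) [Field κ] [IsAlgClosed κ] [Algebra ℂ κ]
      (Ψ : R →ₐ[ℂ] MvPolynomial (Fin 2) κ), IsCurve 𝒜 1 Ψ → ∀ x : Fin 2 → κ,
      ¬ Function.Injective (pt Ψ x))
    {φ : R →ₐ[ℂ] MvPolynomial (Fin 2) Ω}
    (hφ : IsCurve 𝒜 2 φ) (hinj : Function.Injective (pt φ ![1, 0]))
    (hne : ∃ k, ∃ r ∈ 𝒜 k, ∃ s ∈ 𝒜 k,
      pt φ ![0, 1] r * pt φ ![1, 0] s ≠ pt φ ![1, 0] r * pt φ ![0, 1] s)
    (K : Type w) [Field K] [Algebra ℂ K] [Algebra K Ω] [IsScalarTower ℂ K Ω]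
    (h10 : ∀ r, ∃ c : K, algebraMap K Ω c = pt φ ![1, 0] r)
    (h01 : ∀ r, ∃ c : K, algebraMap K Ω c = pt φ ![0, 1] r) (r : R) (m : Fin 2 →₀ ℕ) :
    IsAlgebraic K (coeff m (φ r)) := by
  classical
  by_contra hcon
  obtain ⟨O, hOa, hOK⟩ := e2_exists_valuation (K := K) (a := coeff m (φ r)) hcon
  have hKle : ∀ c : K, O.valuation (algebraMap K Ω c) ≤ 1 := fun c => by
    by_cases hc : c = 0
    · rw [hc, map_zero, map_zero]; exact zero_le
    · exact (hOK c hc).le
  obtain ⟨κ, _, _, res, hp, hs⟩ := exists_isPlace O.valuation (fun c => by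
    rw [IsScalarTower.algebraMap_apply ℂ K Ω]
    exact hKle _)
  have hκ : IsAlgClosed κ := isAlgClosed_of_isPlace hp hs
  have hresK : ∀ c : K, res (algebraMap K Ω c) = 0 → c = 0 := by
    intro c hc
    by_contra h0
    have h1 := (hp.eq_zero_iff _ (hKle c)).1 hc
    rw [hOK c h0] at h1
    exact lt_irrefl _ h1
  have v10 : ∀ r, O.valuation (eval ![1, 0] (φ r)) ≤ 1 := fun r => by
    obtain ⟨c, hc⟩ := h10 r
    rw [← pt_apply, ← hc]; exact hKle c
  have v01 : ∀ r, O.valuation (eval ![0, 1] (φ r)) ≤ 1 := fun r => by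
    obtain ⟨c, hc⟩ := h01 r
    rw [← pt_apply, ← hc]; exact hKle c
  have z10 : ∀ r, res (eval ![1, 0] (φ r)) = 0 → r = 0 := by
    intro r hr
    obtain ⟨c, hc⟩ := h10 r
    rw [← pt_apply, ← hc] at hr
    apply hinj
    rw [map_zero, ← hc, hresK c hr, map_zero]
  have z01 : ∀ r, res (eval ![0, 1] (φ r)) = 0 → eval ![0, 1] (φ r) = 0 := by
    intro r hr
    obtain ⟨c, hc⟩ := h01 r
    rw [← pt_apply, ← hc] at hr ⊢
    rw [hresK c hr, map_zero]
  rcases good_or_chain hX hp hφ.degree v10 v01 with ⟨Φ₀, -, hred⟩ | ⟨ρ, Ψ₁, Ψ₂, hch⟩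
  · exact absurd (hred.bound r m) (not_le.2 hOa)
  -- a chain
  have e1 : ∀ r, eval ![1, 0] (Ψ₁ r) = res (eval ![1, 0] (φ r)) := fun r => hch.end₁ r
  have e2 : ∀ r, eval ![1, 0] (Ψ₂ r) = res (eval ![0, 1] (φ r)) := fun r => hch.end₂ r
  have e3 := hch.node_eq hφ.degree
  -- a line with the value `res w` is impossible
  have hline : ∀ (Ψ : R →ₐ[ℂ] MvPolynomial (Fin 2) κ), IsCurve 𝒜 1 Ψ →
      ∀ x : Fin 2 → κ, ¬ ∀ k, ∀ r ∈ 𝒜 k, eval x (Ψ r) = res (eval ![1, 0] (φ r)) := by
    intro Ψ hΨ x h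
    refine hno κ Ψ hΨ x ?_
    rw [injective_iff_map_eq_zero]
    intro g hg
    have h1 := nw_res_ext (𝒜 := 𝒜) hp (pt Ψ x).toLinearMap (pt φ ![1, 0]).toLinearMap
      (fun r => by
        change O.valuation (pt φ ![1, 0] r) ≤ 1
        rw [pt_apply]; exact v10 r) (fun k r hr => by
        change pt Ψ x r = res (pt φ ![1, 0] r)
        rw [pt_apply, pt_apply]; exact h k r hr) g
    change pt Ψ x g = res (pt φ ![1, 0] g) at h1
    rw [hg, pt_apply] at h1
    exact z10 g h1.symm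
  have n1 : ∃ k, 0 < k ∧ ∃ r ∈ 𝒜 k, eval ![1, 0] (Ψ₁ r) ≠ 0 := by
    obtain ⟨w₀, hw₀⟩ := hX.nonempty
    unfold IsVertex at hw₀
    push Not at hw₀
    obtain ⟨k, hk, r, hr, h⟩ := hw₀
    refine ⟨k, hk, r, hr, fun h0 => h ?_⟩
    rw [z10 r (by rw [← e1, h0]), map_zero]
  have n2 : ∃ k, 0 < k ∧ ∃ r ∈ 𝒜 k, eval ![1, 0] (Ψ₂ r) ≠ 0 := by
    obtain ⟨k, hk, r, hr, h⟩ := hφ.bpf ![0, 1] (fun h => by
      have := congrFun h 1
      simp at this)
    rw [aeval_eq_eval] at h
    exact ⟨k, hk, r, hr, fun h0 => h (z01 r (by rw [← e2, h0]))⟩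
  have n3 : ∃ k, 0 < k ∧ ∃ r ∈ 𝒜 k, eval ![0, 1] (Ψ₂ r) ≠ 0 := by
    obtain ⟨k, hk, r, hr, h⟩ := hch.node
    exact ⟨k, hk, r, hr, by rw [← e3]; exact h⟩
  rcases isCurve_one_or hX Ψ₁ hch.homog₁ ![1, 0] ![0, 1] n1 hch.node with hcur | ⟨c, hc0, hc⟩
  · exact hline Ψ₁ hcur ![1, 0] fun k r hr => e1 r
  · rcases isCurve_one_or hX Ψ₂ hch.homog₂ ![1, 0] ![0, 1] n2 n3 with hcur | ⟨c', hc0', hc'⟩
    · refine hline Ψ₂ hcur (c⁻¹ • ![0, 1]) fun k r hr => ?_
      rw [eval_smul_form (hch.homog₂ k r hr), one_mul, ← e3, hc k r hr, e1, ← mul_assoc,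
        ← mul_pow, inv_mul_cancel₀ hc0, one_pow, one_mul]
    · obtain ⟨k, r, hr, s, hs', hrs⟩ := hne
      have h4 : ∀ r ∈ 𝒜 k, c' ^ k * res (eval ![0, 1] (φ r)) = c ^ k * res (eval ![1, 0] (φ r)) := by
        intro r hr
        have := hc' k r hr
        rw [← e3, hc k r hr, e1, e2] at this
        exact this.symm
      apply hrs
      obtain ⟨a1, ha1⟩ := h10 r
      obtain ⟨a2, ha2⟩ := h01 r
      obtain ⟨b1, hb1⟩ := h10 s
      obtain ⟨b2, hb2⟩ := h01 s
      have h5 := h4 r hr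
      have h6 := h4 s hs'
      rw [← pt_apply, ← pt_apply, ← ha1, ← ha2] at h5
      rw [← pt_apply, ← pt_apply, ← hb1, ← hb2] at h6
      have h7 : res (algebraMap K Ω a2) * res (algebraMap K Ω b1) =
          res (algebraMap K Ω a1) * res (algebraMap K Ω b2) := by
        apply mul_left_cancel₀ (mul_ne_zero (pow_ne_zero k hc0) (pow_ne_zero k hc0'))
        linear_combination c ^ k * res (algebraMap K Ω b1) * h5 -
          c ^ k * res (algebraMap K Ω a1) * h6
      rw [← hp.map_mul _ _ (hKle _) (hKle _), ← hp.map_mul _ _ (hKle _) (hKle _), ← map_mul,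
        ← map_mul] at h7
      have h8 : res (algebraMap K Ω (a2 * b1 - a1 * b2)) = 0 := by
        rw [sub_eq_add_neg, map_add, hp.map_add _ _ (hKle _) (hKle _), map_neg,
          hp.map_neg _ (hKle _), h7, add_neg_cancel]
      have h9 := hresK _ h8
      rw [← ha1, ← ha2, ← hb1, ← hb2, ← map_mul, ← map_mul]
      exact congrArg _ (sub_eq_zero.1 h9)

/-- The coefficients of a conic, one of whose end points is generic, are algebraic over the field
of its end points, if a dense set of points lies on no line. -/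
theorem isAlgebraic_coeff_of_noLines (hX : IsContactFano 𝒜 P) (hno : NoLines 𝒜)
    {Ω : Type v} [Field Ω] [IsAlgClosed Ω] [Algebra ℂ Ω] {φ : R →ₐ[ℂ] MvPolynomial (Fin 2) Ω}
    (hφ : IsCurve 𝒜 2 φ) (hinj : Function.Injective (pt φ ![1, 0]))
    (hne : ∃ k, ∃ r ∈ 𝒜 k, ∃ s ∈ 𝒜 k,
      pt φ ![0, 1] r * pt φ ![1, 0] s ≠ pt φ ![1, 0] r * pt φ ![0, 1] s)
    (K : Type w) [Field K] [Algebra ℂ K] [Algebra K Ω] [IsScalarTower ℂ K Ω]
    (h10 : ∀ r, ∃ c : K, algebraMap K Ω c = pt φ ![1, 0] r)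
    (h01 : ∀ r, ∃ c : K, algebraMap K Ω c = pt φ ![0, 1] r) (r : R) (m : Fin 2 →₀ ℕ) :
    IsAlgebraic K (coeff m (φ r)) := by
  obtain ⟨g, hg0, hg⟩ := hno
  refine isAlgebraic_coeff_of_noLines' hX (fun κ _ _ _ Ψ hΨ x hinj => hg0 (hinj ?_)) hφ hinj hne K
    h10 h01 r m
  rw [map_zero, pt_apply, line_apply_eq_zero hX hg hΨ, map_zero]

/-- A derivation kills the elements which are algebraic over its constants. -/
theorem e2_derivation_eq_zero {K : Type v} [Field K] [CharZero K] [Algebra ℂ K]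
    (D : Derivation ℂ K K) (F : IntermediateField ℂ K) (hF : ∀ x ∈ F, D x = 0) {c : K}
    (hc : IsAlgebraic F c) : D c = 0 := by
  have hint : IsIntegral F c := hc.isIntegral
  have h1 : Polynomial.aeval c (minpoly F c) = 0 := minpoly.aeval F c
  have h2 : ∀ p : Polynomial F, D (Polynomial.aeval c p) =
      Polynomial.aeval c (Polynomial.derivative p) * D c := by
    intro p
    induction p using Polynomial.induction_on' with
    | add p q hp hq => rw [map_add, map_add, hp, hq, map_add, map_add, add_mul]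
    | monomial n a =>
      rw [Polynomial.aeval_monomial, Polynomial.derivative_monomial, Polynomial.aeval_monomial,
        Derivation.leibniz, Derivation.leibniz_pow, map_mul]
      have h3 : D (algebraMap F K a) = 0 := hF _ a.2
      rw [h3, smul_zero, add_zero, smul_eq_mul, smul_eq_mul, nsmul_eq_mul, map_natCast]
      ring
  have h4 := h2 (minpoly F c)
  rw [h1, map_zero] at h4
  have h5 : Polynomial.aeval c (Polynomial.derivative (minpoly F c)) ≠ 0 :=
    (minpoly.irreducible hint).separable.aeval_derivative_ne_zero h1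
  exact (mul_eq_zero.1 h4.symm).resolve_left h5

/-- E2: if there are no anchored lines then the coefficients of an anchored conic with non
proportional ends are killed by the derivations killing both ends. -/
theorem e2_apply_coeff (hX : IsContactFano 𝒜 P)
    (hno : ∀ (κ : Type u) [Field κ] [IsAlgClosed κ] [Algebra ℂ κ]
      (ψ : R →ₐ[ℂ] MvPolynomial (Fin 2) κ), ¬ IsAnch 𝒜 1 ψ)
    {K : Type u} [Field K] [IsAlgClosed K] [Algebra ℂ K]
    {φ : R →ₐ[ℂ] MvPolynomial (Fin 2) K} (hφ : IsAnch 𝒜 2 φ) (hp : NonProp 𝒜 φ)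
    (D : Derivation ℂ K K) (h0 : ∀ r, D (pt φ ![1, 0] r) = 0) (h1 : ∀ r, D (pt φ ![0, 1] r) = 0)
    (r : R) (m : Fin 2 →₀ ℕ) : D (coeff m (φ r)) = 0 := by
  have hchar : CharZero K := charZero_of_injective_algebraMap (algebraMap ℂ K).injective
  -- the field of constants
  let F : IntermediateField ℂ K :=
    { carrier := {x | D x = 0}
      mul_mem' := fun {a b} ha hb => by
        change D (a * b) = 0
        rw [Derivation.leibniz, show D a = 0 from ha, show D b = 0 from hb, smul_zero, smul_zero,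
          add_zero]
      add_mem' := fun {a b} ha hb => by
        change D (a + b) = 0
        rw [map_add, show D a = 0 from ha, show D b = 0 from hb, add_zero]
      algebraMap_mem' := fun c => D.map_algebraMap c
      inv_mem' := fun a ha => by
        change D a⁻¹ = 0
        rw [Derivation.leibniz_inv, show D a = 0 from ha, smul_zero] }
  refine e2_derivation_eq_zero D F (fun x hx => hx) ?_
  obtain ⟨k, r', hr', s', hs', hne⟩ := hp
  refine isAlgebraic_coeff_of_noLines' hX (fun κ _ _ _ Ψ hΨ x hinj => ?_) hφ.curve hφ.inj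
    ⟨k, s', hs', r', hr', fun h => hne ?_⟩ F (fun r => ⟨⟨_, h0 r⟩, rfl⟩)
    (fun r => ⟨⟨_, h1 r⟩, rfl⟩) r m
  · have hx0 : x ≠ 0 := by
      rintro rfl
      obtain ⟨w₀, hw₀⟩ := hX.nonempty
      unfold IsVertex at hw₀
      push Not at hw₀
      obtain ⟨k, hk, r, hr, h⟩ := hw₀
      apply h
      have h2 : r = 0 := by
        apply hinj
        rw [map_zero, pt_apply]
        have h3 := eval_smul_form (hΨ.degree k r hr) (0 : κ) (0 : Fin 2 → κ)
        rw [zero_smul, zero_pow (by omega), zero_mul] at h3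
        exact h3
      rw [h2, map_zero]
    obtain ⟨φ', hφ', h6⟩ := hΨ.exists_reparam x hx0
    exact hno κ φ' ⟨hφ', by rw [h6]; exact hinj⟩
  · linear_combination h

/-- A curve of positive degree is not constant: some point is different from the point with
parameter `(1, 0)`. -/
theorem IsCurve.exists_ne {d : ℕ} (hd : 0 < d) {Ω : Type v} [Field Ω] [IsAlgClosed Ω]
    [Algebra ℂ Ω] {φ : R →ₐ[ℂ] MvPolynomial (Fin 2) Ω} (hφ : IsCurve 𝒜 d φ) (a : Fin 2 → Ω)
    (ha : a ≠ 0) :
    ∃ u : Fin 2 → Ω, u ≠ 0 ∧ ∃ k, ∃ r ∈ 𝒜 k, ∃ s ∈ 𝒜 k,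
      pt φ u r * pt φ a s ≠ pt φ a r * pt φ u s := by
  classical
  by_contra hcon
  push Not at hcon
  have : Infinite Ω := by
    have := charZero_of_injective_algebraMap (algebraMap ℂ Ω).injective
    infer_instance
  obtain ⟨k, hk, s, hs, hs0⟩ := hφ.bpf a ha
  rw [aeval_eq_eval] at hs0
  have hs0' : eval a (φ s) ≠ 0 := hs0
  -- a zero of `φ s`
  obtain ⟨u, hu0, hu⟩ : ∃ u : Fin 2 → Ω, u ≠ 0 ∧ eval u (φ s) = 0 := by
    have hdeg : 0 < d * k := Nat.mul_pos hd hk
    by_cases h1 : eval ![0, 1] (φ s) = 0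
    · exact ⟨![0, 1], fun h => by have := congrFun h 1; simp at this, h1⟩
    · have h2 : (nwDehom Ω 0 (φ s)).coeff (d * k) ≠ 0 := by
        rw [nwDehom_coeff_symm (hφ.degree k s hs) (i := d * k) (j := 0) (by omega),
          ← nw_eval_zero_one]
        exact h1
      have h3 : (nwDehom Ω 0 (φ s)).degree ≠ 0 := by
        intro h4
        have h5 := Polynomial.le_degree_of_ne_zero h2
        rw [h4] at h5
        have h6 : (d * k : ℕ) ≤ 0 := by exact_mod_cast h5
        omega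
      obtain ⟨x, hx⟩ := IsAlgClosed.exists_root _ h3
      refine ⟨![1, x], fun h => by have := congrFun h 0; simp at this, ?_⟩
      rw [← eval_nwDehom_zero]
      exact hx
  obtain ⟨l, hl, t, ht, ht0⟩ := hφ.bpf u hu0
  rw [aeval_eq_eval] at ht0
  have ht0' : eval u (φ t) ≠ 0 := ht0
  have h7 := hcon u hu0 (l * k) (t ^ k) (by
    have := SetLike.pow_mem_graded k ht
    rwa [smul_eq_mul, mul_comm] at this) (s ^ l) (by
    have := SetLike.pow_mem_graded l hs
    rwa [smul_eq_mul] at this)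
  simp only [pt_apply, map_pow] at h7
  rw [hu, zero_pow hl.ne', mul_zero] at h7
  exact mul_ne_zero (pow_ne_zero _ ht0') (pow_ne_zero _ hs0') h7

end Vale.Agent.P292
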