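import Vale.Agent.P292.Q2.Node1

/-! # Two lines through a generic point: the formal smoothing of the chain. -/

namespace Vale.Agent.P292

open MvPowerSeries

universe u v w

variable {R : Type u} [CommRing R] [Algebra ℂ R] {𝒜 : ℕ → Submodule ℂ R}
  {K : Type v} [Field K] [Algebra ℂ K]

omit [Algebra ℂ K] in
theorem n1_degree (m : Fin 2 →₀ ℕ) : m.degree = m 0 + m 1 := by
  rw [Finsupp.degree_eq_sum, Fin.sum_univ_two]

omit [Algebra ℂ K] in
/-- The coefficients of a polynomial in one of the two variables. -/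
theorem n1_coeff_aeval (p : Fin 2) (f : Polynomial K) (m : Fin 2 →₀ ℕ) :
    coeff m (Polynomial.aeval (MvPowerSeries.X p : MvPowerSeries (Fin 2) K) f) =
      if m = Finsupp.single p (m p) then f.coeff (m p) else 0 := by
  classical
  induction f using Polynomial.induction_on' with
  | add f g hf hg =>
    rw [map_add, map_add, hf, hg, Polynomial.coeff_add]
    split_ifs
    · rfl
    · rw [add_zero]
  | monomial n a =>
    rw [Polynomial.aeval_monomial, Polynomial.coeff_monomial, X_pow_eq]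
    have h1 : (algebraMap K (MvPowerSeries (Fin 2) K)) a = C a := rfl
    rw [h1, coeff_C_mul, coeff_monomial]
    by_cases h : m = Finsupp.single p n
    · rw [if_pos h, mul_one, if_pos, if_pos]
      · rw [h]; simp
      · rw [h]; simp
    · rw [if_neg h, mul_zero]
      split_ifs with h2 h3
      · exfalso
        apply h
        rw [h3]
        exact h2
      · rfl
      · rfl

/-- The curve `ψ`, dehomogenised at the point `(1, 0)`, as a map to power series in the variable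
`X p`. -/
noncomputable def n1Init (ψ : R →ₐ[ℂ] MvPolynomial (Fin 2) K) (p : Fin 2) :
    R →ₐ[ℂ] MvPowerSeries (Fin 2) K :=
  ((Polynomial.aeval (MvPowerSeries.X p : MvPowerSeries (Fin 2) K) :
    Polynomial K →ₐ[K] MvPowerSeries (Fin 2) K).restrictScalars ℂ).comp ((nwDehom K 0).comp ψ)

theorem coeff_n1Init (ψ : R →ₐ[ℂ] MvPolynomial (Fin 2) K) (p : Fin 2) (r : R)
    (m : Fin 2 →₀ ℕ) : coeff m (n1Init ψ p r) =
      if m = Finsupp.single p (m p) then (nwDehom K 0 (ψ r)).coeff (m p) else 0 :=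
  n1_coeff_aeval p _ m

/-- The invariant of the construction. -/
structure N1St (𝒜 : ℕ → Submodule ℂ R) (f₁ f₂ : R →ₐ[ℂ] MvPowerSeries (Fin 2) K) (n : ℕ)
    (F : (R →ₐ[ℂ] MvPowerSeries (Fin 2) K) × (R →ₐ[ℂ] MvPowerSeries (Fin 2) K)) : Prop where
  w1 : ∀ k, ∀ r ∈ 𝒜 k, ∀ m : Fin 2 →₀ ℕ, m 1 + k < m 0 → coeff m (F.1 r) = 0
  w2 : ∀ k, ∀ r ∈ 𝒜 k, ∀ m : Fin 2 →₀ ℕ, m 0 + k < m 1 → coeff m (F.2 r) = 0
  a1 : ∀ r, ∀ m : Fin 2 →₀ ℕ, m 1 = 0 → coeff m (F.1 r) = coeff m (f₁ r)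
  a2 : ∀ r, ∀ m : Fin 2 →₀ ℕ, m 0 = 0 → coeff m (F.2 r) = coeff m (f₂ r)
  eq : ∀ r, ∀ m : Fin 2 →₀ ℕ, m.degree < n → coeff m (F.1 r) = coeff m (F.2 r)

/-- The step of the construction. -/
theorem N1St.step {f₁ f₂ : R →ₐ[ℂ] MvPowerSeries (Fin 2) K} {y : R →ₐ[ℂ] K}
    (hy : Function.Injective y) (hf₁ : ∀ r, coeff 0 (f₁ r) = y r) {n : ℕ} (hn : 0 < n)
    {F : (R →ₐ[ℂ] MvPowerSeries (Fin 2) K) × (R →ₐ[ℂ] MvPowerSeries (Fin 2) K)}
    (h : N1St 𝒜 f₁ f₂ n F) :
    ∃ F' : (R →ₐ[ℂ] MvPowerSeries (Fin 2) K) × (R →ₐ[ℂ] MvPowerSeries (Fin 2) K),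
      N1St 𝒜 f₁ f₂ (n + 1) F' ∧ ∀ r, ∀ m : Fin 2 →₀ ℕ, m.degree < n →
        coeff m (F'.2 r) = coeff m (F.2 r) := by
  classical
  have hc1 : ∀ r, coeff 0 (F.1 r) = y r := fun r => by rw [h.a1 r 0 rfl, hf₁]
  have hc2 : ∀ r, coeff 0 (F.2 r) = y r := fun r => by
    rw [← h.eq r 0 (by rw [map_zero]; exact hn), hc1]
  -- the differences are derivations
  let d : (Fin 2 →₀ ℕ) → R →ₗ[ℂ] K := fun m =>
    ((coeff m : MvPowerSeries (Fin 2) K →ₗ[K] K).restrictScalars ℂ) ∘ₗ F.1.toLinearMap -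
    ((coeff m : MvPowerSeries (Fin 2) K →ₗ[K] K).restrictScalars ℂ) ∘ₗ F.2.toLinearMap
  have hd : ∀ m r, d m r = coeff m (F.1 r) - coeff m (F.2 r) := fun m r => rfl
  have hlow : ∀ r, N1Low n (F.1 r - F.2 r) := fun r m hm => by
    rw [map_sub, h.eq r m hm, sub_self]
  have hder : ∀ m : Fin 2 →₀ ℕ, m.degree = n → IsDer y (d m) := by
    intro m hm r s
    have e1 : coeff m (F.1 (r * s)) - coeff m (F.2 (r * s)) =
        coeff m ((F.1 r - F.2 r) * F.1 s) + coeff m ((F.1 s - F.2 s) * F.2 r) := by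
      rw [← map_add, ← map_sub, map_mul, map_mul]
      congr 1
      ring
    rw [hd, e1, (hlow r).coeff_mul hm, (hlow s).coeff_mul hm, hc1, hc2, hd, hd, map_sub, map_sub]
    ring
  have hD : ∀ m : Fin 2 →₀ ℕ, ∃ D : Derivation ℂ K K, m.degree = n → ∀ r, D (y r) = d m r := by
    intro m
    by_cases hm : m.degree = n
    · obtain ⟨D, hD⟩ := lwq_exists_D y (hder m hm) (fun r hr => by
        rw [hy (by rw [hr, map_zero] : y r = y 0), map_zero])
      exact ⟨D, fun _ => hD⟩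
    · exact ⟨0, fun h => absurd h hm⟩
  choose D hD using hD
  let Tn : Finset (Fin 2 →₀ ℕ) := (Finsupp.finite_of_degree_le (σ := Fin 2) n).toFinset
  have hTn : ∀ m : Fin 2 →₀ ℕ, m.degree = n → m ∈ Tn := fun m hm => by
    rw [Set.Finite.mem_toFinset]
    exact hm.le
  let T₁ : Finset (Fin 2 →₀ ℕ) := Tn.filter fun m => m.degree = n ∧ m 0 < m 1
  let T₂ : Finset (Fin 2 →₀ ℕ) := Tn.filter fun m => m.degree = n ∧ m 1 ≤ m 0
  have hT₁ : ∀ e ∈ T₁, e.degree = n ∧ e 0 < e 1 := fun e he => (Finset.mem_filter.1 he).2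
  have hT₂ : ∀ e ∈ T₂, e.degree = n ∧ e 1 ≤ e 0 := fun e he => (Finset.mem_filter.1 he).2
  let G₁ := n1G T₁ (fun m => - D m)
  let G₂ := n1G T₂ D
  have hG₁ : ∀ k f, N1Low k f → N1Low (k + n) (G₁ f) :=
    n1G_low (fun e he => (hT₁ e he).1) _
  have hG₂ : ∀ k f, N1Low k f → N1Low (k + n) (G₂ f) :=
    n1G_low (fun e he => (hT₂ e he).1) _
  refine ⟨((n1Exp hn hG₁).comp F.1, (n1Exp hn hG₂).comp F.2), ⟨?_, ?_, ?_, ?_, ?_⟩, ?_⟩
  · intro k r hr m hm
    refine coeff_n1Exp_eq_zero hn hG₁ (T := {m | m 1 + k < m 0}) (fun f hf m hm => ?_)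
      (fun m hm => h.w1 k r hr m hm) hm
    change coeff m (n1G T₁ _ f) = 0
    rw [coeff_n1G]
    refine Finset.sum_eq_zero fun e he => ?_
    split_ifs with hle
    · rw [hf, map_zero]
      obtain ⟨c, rfl⟩ := exists_add_of_le hle
      rw [add_tsub_cancel_left]
      have h1 := (hT₁ e he).2
      simp only [Set.mem_ofPred_eq, Finsupp.add_apply] at hm ⊢
      omega
    · rfl
  · intro k r hr m hm
    refine coeff_n1Exp_eq_zero hn hG₂ (T := {m | m 0 + k < m 1}) (fun f hf m hm => ?_)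
      (fun m hm => h.w2 k r hr m hm) hm
    change coeff m (n1G T₂ _ f) = 0
    rw [coeff_n1G]
    refine Finset.sum_eq_zero fun e he => ?_
    split_ifs with hle
    · rw [hf, map_zero]
      obtain ⟨c, rfl⟩ := exists_add_of_le hle
      rw [add_tsub_cancel_left]
      have h1 := (hT₂ e he).2
      simp only [Set.mem_ofPred_eq, Finsupp.add_apply] at hm ⊢
      omega
    · rfl
  · intro r m hm
    change coeff m (n1Exp hn hG₁ (F.1 r)) = _
    rw [coeff_n1Exp_of_kill hn hG₁ (fun f => ?_), h.a1 r m hm]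
    change coeff m (n1G T₁ _ f) = 0
    rw [coeff_n1G]
    refine Finset.sum_eq_zero fun e he => ?_
    rw [if_neg]
    intro hle
    have h1 := (hT₁ e he).2
    have h2 := hle 1
    omega
  · intro r m hm
    change coeff m (n1Exp hn hG₂ (F.2 r)) = _
    rw [coeff_n1Exp_of_kill hn hG₂ (fun f => ?_), h.a2 r m hm]
    change coeff m (n1G T₂ _ f) = 0
    rw [coeff_n1G]
    refine Finset.sum_eq_zero fun e he => ?_
    rw [if_neg]
    intro hle
    have h1 := (hT₂ e he)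
    have h2 := hle 0
    rw [n1_degree] at h1
    omega
  · intro r m hm
    change coeff m (n1Exp hn hG₁ (F.1 r)) = coeff m (n1Exp hn hG₂ (F.2 r))
    rcases Nat.lt_succ_iff_lt_or_eq.1 hm with hm | hm
    · rw [coeff_n1Exp_of_lt hn hG₁ _ hm, coeff_n1Exp_of_lt hn hG₂ _ hm, h.eq r m hm]
    · rw [coeff_n1Exp_of_eq hn hG₁ _ hm, coeff_n1Exp_of_eq hn hG₂ _ hm]
      change _ + coeff m (n1G T₁ _ _) = _ + coeff m (n1G T₂ _ _)
      rw [coeff_n1G_of_eq (fun e he => (hT₁ e he).1) _ _ hm,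
        coeff_n1G_of_eq (fun e he => (hT₂ e he).1) _ _ hm, hc1, hc2]
      have h1 := hD m hm r
      rw [hd] at h1
      by_cases h2 : m 0 < m 1
      · have h3 : m ∈ T₁ := Finset.mem_filter.2 ⟨hTn m hm, hm, h2⟩
        have h4 : m ∉ T₂ := fun h => by
          have := (hT₂ m h).2
          omega
        rw [if_pos h3, if_neg h4, Derivation.neg_apply, h1]
        ring
      · have h3 : m ∈ T₂ := Finset.mem_filter.2 ⟨hTn m hm, hm, by omega⟩
        have h4 : m ∉ T₁ := fun h => by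
          have := (hT₁ m h).2
          omega
        rw [if_neg h4, if_pos h3, h1]
        ring
  · intro r m hm
    exact coeff_n1Exp_of_lt hn hG₂ _ hm

/-- **Formal smoothing of a chain of two lines** with a generic node. -/
theorem exists_smoothing {ψ₁ ψ₂ : R →ₐ[ℂ] MvPolynomial (Fin 2) K}
    (h₁ : ∀ k, ∀ r ∈ 𝒜 k, (ψ₁ r).IsHomogeneous (1 * k))
    (h₂ : ∀ k, ∀ r ∈ 𝒜 k, (ψ₂ r).IsHomogeneous (1 * k))
    (hinj : Function.Injective (pt ψ₁ ![1, 0])) (heq : pt ψ₁ ![1, 0] = pt ψ₂ ![1, 0]) :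
    ∃ Φ : R →ₐ[ℂ] MvPowerSeries (Fin 2) K,
      (∀ k, ∀ r ∈ 𝒜 k, ∀ m : Fin 2 →₀ ℕ, m 1 + k < m 0 → coeff m (Φ r) = 0) ∧
      (∀ k, ∀ r ∈ 𝒜 k, ∀ m : Fin 2 →₀ ℕ, m 0 + k < m 1 → coeff m (Φ r) = 0) ∧
      (∀ r i, coeff (Finsupp.single 0 i) (Φ r) = (nwDehom K 0 (ψ₁ r)).coeff i) ∧
      ∀ r i, coeff (Finsupp.single 1 i) (Φ r) = (nwDehom K 0 (ψ₂ r)).coeff i := by
  classical
  set f₁ := n1Init ψ₁ 0 with hf₁
  set f₂ := n1Init ψ₂ 1 with hf₂
  have hz1 : ∀ r, coeff 0 (f₁ r) = pt ψ₁ ![1, 0] r := fun r => by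
    rw [hf₁, coeff_n1Init, pt_apply, nw_eval_one_zero, if_pos (by simp)]
    rfl
  have hz2 : ∀ r, coeff 0 (f₂ r) = pt ψ₂ ![1, 0] r := fun r => by
    rw [hf₂, coeff_n1Init, pt_apply, nw_eval_one_zero, if_pos (by simp)]
    rfl
  have hnz : ∀ {p : Polynomial K} {k i : ℕ}, p.natDegree ≤ 1 * k → k < i → p.coeff i = 0 :=
    fun hp hi => Polynomial.coeff_eq_zero_of_natDegree_lt (by omega)
  have h0 : N1St 𝒜 f₁ f₂ (0 + 1) (f₁, f₂) := by
    refine ⟨fun k r hr m hm => ?_, fun k r hr m hm => ?_, fun r m _ => rfl, fun r m _ => rfl,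
      fun r m hm => ?_⟩
    · change coeff m (f₁ r) = 0
      rw [hf₁, coeff_n1Init]
      split_ifs
      · exact hnz (nwDehom_natDegree_le 0 1 (by decide) (h₁ k r hr)) (by omega)
      · rfl
    · change coeff m (f₂ r) = 0
      rw [hf₂, coeff_n1Init]
      split_ifs
      · exact hnz (nwDehom_natDegree_le 0 1 (by decide) (h₂ k r hr)) (by omega)
      · rfl
    · have h3 : m = 0 := (Finsupp.degree_eq_zero_iff _).1 (by omega)
      rw [h3]
      change coeff 0 (f₁ r) = coeff 0 (f₂ r)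
      rw [hz1, hz2, heq]
  let F : ∀ n : ℕ, {F : (R →ₐ[ℂ] MvPowerSeries (Fin 2) K) × (R →ₐ[ℂ] MvPowerSeries (Fin 2) K) //
      N1St 𝒜 f₁ f₂ (n + 1) F} := fun n => Nat.rec ⟨(f₁, f₂), h0⟩
    (fun n F => ⟨(F.2.step hinj hz1 (Nat.succ_pos n)).choose,
      (F.2.step hinj hz1 (Nat.succ_pos n)).choose_spec.1⟩) n
  have hF : ∀ n r, ∀ m : Fin 2 →₀ ℕ, m.degree < n + 1 →
      coeff m ((F (n + 1)).1.2 r) = coeff m ((F n).1.2 r) := fun n r m hm =>
    ((F n).2.step hinj hz1 (Nat.succ_pos n)).choose_spec.2 r m hm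
  have hmono : ∀ N n, n ≤ N → ∀ r, ∀ m : Fin 2 →₀ ℕ, m.degree < n + 1 →
      coeff m ((F N).1.2 r) = coeff m ((F n).1.2 r) := by
    intro N n hn r m hm
    induction N, hn using Nat.le_induction with
    | base => rfl
    | succ N hN ih => rw [hF N r m (by omega), ih]
  -- the limit
  let L : R →ₗ[ℂ] MvPowerSeries (Fin 2) K :=
    { toFun := fun r => fun m => coeff m ((F m.degree).1.2 r)
      map_add' := fun r s => by
        ext m
        change coeff m ((F m.degree).1.2 (r + s)) = coeff m ((F m.degree).1.2 r) +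
          coeff m ((F m.degree).1.2 s)
        rw [map_add, map_add]
      map_smul' := fun c r => by
        ext m
        change coeff m ((F m.degree).1.2 (c • r)) = c • coeff m ((F m.degree).1.2 r)
        rw [map_smul]
        rfl }
  have hL : ∀ r, ∀ m : Fin 2 →₀ ℕ, ∀ N, m.degree ≤ N →
      coeff m (L r) = coeff m ((F N).1.2 r) := by
    intro r m N hN
    exact (hmono N m.degree hN r m (Nat.lt_succ_self _)).symm
  have hL1 : ∀ r, ∀ m : Fin 2 →₀ ℕ, coeff m (L r) = coeff m ((F m.degree).1.1 r) := by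
    intro r m
    rw [hL r m _ le_rfl]
    exact ((F m.degree).2.eq r m (Nat.lt_succ_self _)).symm
  let Φ : R →ₐ[ℂ] MvPowerSeries (Fin 2) K := AlgHom.ofLinearMap L
    (by
      ext m
      rw [hL 1 m _ le_rfl, map_one])
    (fun r s => by
      ext m
      rw [hL (r * s) m _ le_rfl, map_mul, coeff_mul, coeff_mul]
      refine Finset.sum_congr rfl fun p hp => ?_
      rw [Finset.HasAntidiagonal.mem_antidiagonal] at hp
      have hdeg : m.degree = p.1.degree + p.2.degree := by rw [← hp, map_add]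
      rw [hL r p.1 m.degree (by omega), hL s p.2 m.degree (by omega)])
  refine ⟨Φ, fun k r hr m hm => ?_, fun k r hr m hm => ?_, fun r i => ?_, fun r i => ?_⟩
  · change coeff m (L r) = 0
    rw [hL1]
    exact (F m.degree).2.w1 k r hr m hm
  · change coeff m (L r) = 0
    rw [hL r m _ le_rfl]
    exact (F m.degree).2.w2 k r hr m hm
  · change coeff (Finsupp.single 0 i) (L r) = _
    rw [hL1, (F _).2.a1 r _ (by simp), hf₁, coeff_n1Init, if_pos (by simp)]
    simp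
  · change coeff (Finsupp.single 1 i) (L r) = _
    rw [hL r _ _ le_rfl, (F _).2.a2 r _ (by simp), hf₂, coeff_n1Init, if_pos (by simp)]
    simp

end Vale.Agent.P292
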