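import Vale.Agent.P292.K.Q2Defs
import Vale.Agent.P292.MM.LWQ
import Mathlib.RingTheory.PowerSeries.Derivative

/-! # Exponentials of derivations of the ring of power series `K[[x, z]]` -/

namespace Vale.Agent.P292

open MvPowerSeries

universe u v w

/-! ### the exponential of a derivation which raises the order -/

section exp

variable {K : Type v} [Field K] [Algebra ℂ K]

/-- Power series of order at least `n`. -/
def N1Low {K : Type v} [Field K] (n : ℕ) (f : MvPowerSeries (Fin 2) K) : Prop :=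
  ∀ m : Fin 2 →₀ ℕ, m.degree < n → coeff m f = 0

omit [Algebra ℂ K] in
theorem N1Low.mono {n n' : ℕ} {f : MvPowerSeries (Fin 2) K} (h : N1Low n f) (hn : n' ≤ n) :
    N1Low n' f := fun m hm => h m (hm.trans_le hn)

omit [Algebra ℂ K] in
theorem N1Low.mul {n n' : ℕ} {f g : MvPowerSeries (Fin 2) K} (hf : N1Low n f)
    (hg : N1Low n' g) : N1Low (n + n') (f * g) := by
  classical
  intro m hm
  rw [coeff_mul]
  refine Finset.sum_eq_zero fun p hp => ?_
  rw [Finset.HasAntidiagonal.mem_antidiagonal] at hp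
  have hd : m.degree = p.1.degree + p.2.degree := by rw [← hp, map_add]
  by_cases h1 : p.1.degree < n
  · rw [hf _ h1, zero_mul]
  · rw [hg p.2 (by omega), mul_zero]

omit [Algebra ℂ K] in
/-- The leading coefficients of a product. -/
theorem N1Low.coeff_mul {n : ℕ} {f g : MvPowerSeries (Fin 2) K} (hf : N1Low n f)
    {m : Fin 2 →₀ ℕ} (hm : m.degree = n) : coeff m (f * g) = coeff m f * coeff 0 g := by
  classical
  rw [MvPowerSeries.coeff_mul, Finset.sum_eq_single (m, 0)]
  · intro p hp hne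
    rw [Finset.HasAntidiagonal.mem_antidiagonal] at hp
    have hd : m.degree = p.1.degree + p.2.degree := by rw [← hp, map_add]
    by_cases h1 : p.1.degree < n
    · rw [hf _ h1, zero_mul]
    · exfalso
      apply hne
      have h2 : p.2.degree = 0 := by omega
      have h3 : p.2 = 0 := (Finsupp.degree_eq_zero_iff _).1 h2
      rw [h3, add_zero] at hp
      rw [← hp, ← h3]
  · intro h
    exfalso
    apply h
    rw [Finset.HasAntidiagonal.mem_antidiagonal, add_zero]

/-- Divided powers of a derivation. -/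
noncomputable def n1Pow (G : Derivation ℂ (MvPowerSeries (Fin 2) K) (MvPowerSeries (Fin 2) K)) :
    ℕ → MvPowerSeries (Fin 2) K →ₗ[ℂ] MvPowerSeries (Fin 2) K
  | 0 => LinearMap.id
  | k + 1 => ((k + 1 : ℂ)⁻¹) • ((G : MvPowerSeries (Fin 2) K →ₗ[ℂ] MvPowerSeries (Fin 2) K) ∘ₗ
      n1Pow G k)

variable (G : Derivation ℂ (MvPowerSeries (Fin 2) K) (MvPowerSeries (Fin 2) K))

theorem n1Pow_zero (f : MvPowerSeries (Fin 2) K) : n1Pow G 0 f = f := rfl

theorem n1Pow_succ (k : ℕ) (f : MvPowerSeries (Fin 2) K) :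
    (k + 1 : ℂ) • n1Pow G (k + 1) f = G (n1Pow G k f) := by
  change (k + 1 : ℂ) • (((k + 1 : ℂ)⁻¹) • G (n1Pow G k f)) = _
  rw [smul_smul, mul_inv_cancel₀ (Nat.cast_add_one_ne_zero k), one_smul]

theorem n1Pow_one (f : MvPowerSeries (Fin 2) K) : n1Pow G 1 f = G f := by
  have := n1Pow_succ G 0 f
  simpa [n1Pow_zero] using this

/-- Leibniz rule for divided powers. -/
theorem n1Pow_mul (k : ℕ) (f g : MvPowerSeries (Fin 2) K) :
    n1Pow G k (f * g) = ∑ p ∈ Finset.HasAntidiagonal.antidiagonal k, n1Pow G p.1 f * n1Pow G p.2 g := by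
  let E : MvPowerSeries (Fin 2) K → PowerSeries (MvPowerSeries (Fin 2) K) := fun f =>
    PowerSeries.mk fun k => n1Pow G k f
  have hE : ∀ f k, PowerSeries.coeff k (E f) = n1Pow G k f := fun f k => PowerSeries.coeff_mk _ _
  have key : ∀ k, n1Pow G k (f * g) = PowerSeries.coeff k (E f * E g) := by
    intro k
    induction k with
    | zero =>
      rw [PowerSeries.coeff_mul, Finset.Nat.antidiagonal_zero, Finset.sum_singleton, hE, hE]
      rfl
    | succ k ih =>
      have h1 := n1Pow_succ G k (f * g)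
      have h2 := congrArg (PowerSeries.coeff k)
        ((PowerSeries.derivative (MvPowerSeries (Fin 2) K)).leibniz (E f) (E g))
      have h3 : PowerSeries.coeff k
          (PowerSeries.derivative (MvPowerSeries (Fin 2) K) (E f * E g)) =
          G (PowerSeries.coeff k (E f * E g)) := by
        rw [h2, map_add, smul_eq_mul, smul_eq_mul, PowerSeries.coeff_mul, PowerSeries.coeff_mul,
          PowerSeries.coeff_mul, map_sum]
        have h4 : ∀ f j, PowerSeries.coeff j
            (PowerSeries.derivative (MvPowerSeries (Fin 2) K) (E f)) =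
            G (PowerSeries.coeff j (E f)) := by
          intro f j
          rw [PowerSeries.coeff_derivative, hE, hE, ← n1Pow_succ, Algebra.smul_def, mul_comm]
          congr 1
          rw [map_add, map_natCast, map_one]
        simp only [h4, Derivation.leibniz, smul_eq_mul, Finset.sum_add_distrib]
        congr 1
        rw [← Finset.Nat.sum_antidiagonal_swap]
        rfl
      have h5 : (k + 1 : ℂ) • PowerSeries.coeff (k + 1) (E f * E g) =
          G (PowerSeries.coeff k (E f * E g)) := by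
        rw [← h3, PowerSeries.coeff_derivative, Algebra.smul_def, mul_comm]
        congr 1
        rw [map_add, map_natCast, map_one]
      have h6 : (k + 1 : ℂ) • n1Pow G (k + 1) (f * g) =
          (k + 1 : ℂ) • PowerSeries.coeff (k + 1) (E f * E g) := by
        rw [h1, h5, ih]
      have hk : (k + 1 : ℂ) ≠ 0 := Nat.cast_add_one_ne_zero k
      have h7 := congrArg (fun t => ((k + 1 : ℂ)⁻¹) • t) h6
      simp only [smul_smul, inv_mul_cancel₀ hk, one_smul] at h7
      exact h7
  rw [key, PowerSeries.coeff_mul]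
  simp only [hE]

theorem n1Pow_one_right (k : ℕ) : n1Pow G (k + 1) (1 : MvPowerSeries (Fin 2) K) = 0 := by
  induction k with
  | zero =>
    rw [n1Pow_one, Derivation.map_one_eq_zero]
  | succ k ih =>
    change ((k + 1 : ℕ) + 1 : ℂ)⁻¹ • G (n1Pow G (k + 1) 1) = 0
    rw [ih, map_zero, smul_zero]

variable {G}

theorem n1Pow_low {n : ℕ} (hG : ∀ k f, N1Low k f → N1Low (k + n) (G f)) (k : ℕ)
    {j : ℕ} {f : MvPowerSeries (Fin 2) K} (hf : N1Low j f) : N1Low (j + k * n) (n1Pow G k f) := by
  induction k with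
  | zero =>
    rw [Nat.zero_mul, add_zero]
    exact hf
  | succ k ih =>
    intro m hm
    change coeff m ((k + 1 : ℂ)⁻¹ • G (n1Pow G k f)) = 0
    have h1 := hG _ _ ih m (by rw [add_assoc]; rwa [Nat.succ_mul] at hm)
    have h2 : coeff m ((k + 1 : ℂ)⁻¹ • G (n1Pow G k f)) =
      (k + 1 : ℂ)⁻¹ • coeff m (G (n1Pow G k f)) := rfl
    rw [h2, h1, smul_zero]

variable (G) in
/-- The exponential of a derivation, as a linear map. -/
noncomputable def n1ExpL : MvPowerSeries (Fin 2) K →ₗ[ℂ] MvPowerSeries (Fin 2) K where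
  toFun f := fun m => ∑ k ∈ Finset.range (m.degree + 1), coeff m (n1Pow G k f)
  map_add' f g := by
    ext m
    change ∑ k ∈ Finset.range (m.degree + 1), coeff m (n1Pow G k (f + g)) =
      ∑ k ∈ Finset.range (m.degree + 1), coeff m (n1Pow G k f) +
      ∑ k ∈ Finset.range (m.degree + 1), coeff m (n1Pow G k g)
    rw [← Finset.sum_add_distrib]
    refine Finset.sum_congr rfl fun k _ => ?_
    rw [map_add, map_add]
  map_smul' c f := by
    ext m
    change ∑ k ∈ Finset.range (m.degree + 1), coeff m (n1Pow G k (c • f)) =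
      c • ∑ k ∈ Finset.range (m.degree + 1), coeff m (n1Pow G k f)
    rw [Finset.smul_sum]
    refine Finset.sum_congr rfl fun k _ => ?_
    rw [map_smul]
    rfl

theorem coeff_n1ExpL (f : MvPowerSeries (Fin 2) K) (m : Fin 2 →₀ ℕ) :
    coeff m (n1ExpL G f) = ∑ k ∈ Finset.range (m.degree + 1), coeff m (n1Pow G k f) := rfl

omit [Algebra ℂ K] in
theorem n1_zero_low (f : MvPowerSeries (Fin 2) K) : N1Low 0 f := fun _ hm =>
  absurd hm (Nat.not_lt_zero _)

theorem coeff_n1ExpL_of_le {n : ℕ} (hn : 0 < n) (hG : ∀ k f, N1Low k f → N1Low (k + n) (G f))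
    (f : MvPowerSeries (Fin 2) K) {m : Fin 2 →₀ ℕ} {N : ℕ} (hN : m.degree ≤ N) :
    coeff m (n1ExpL G f) = coeff m (∑ k ∈ Finset.range (N + 1), n1Pow G k f) := by
  rw [coeff_n1ExpL, map_sum]
  refine Finset.sum_subset (Finset.range_subset_range.2 (by omega)) fun k _ hk => ?_
  rw [Finset.mem_range] at hk
  refine n1Pow_low hG k (n1_zero_low f) m ?_
  have h1 : k * 1 ≤ k * n := Nat.mul_le_mul_left k hn
  omega

/-- The exponential is multiplicative. -/
theorem n1ExpL_mul {n : ℕ} (hn : 0 < n) (hG : ∀ k f, N1Low k f → N1Low (k + n) (G f))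
    (f g : MvPowerSeries (Fin 2) K) : n1ExpL G (f * g) = n1ExpL G f * n1ExpL G g := by
  classical
  ext m
  set N := m.degree with hN
  rw [coeff_n1ExpL_of_le hn hG _ (le_refl m.degree)]
  have h1 : coeff m (n1ExpL G f * n1ExpL G g) =
      coeff m ((∑ k ∈ Finset.range (N + 1), n1Pow G k f) *
        ∑ k ∈ Finset.range (N + 1), n1Pow G k g) := by
    rw [MvPowerSeries.coeff_mul, MvPowerSeries.coeff_mul]
    refine Finset.sum_congr rfl fun p hp => ?_
    rw [Finset.HasAntidiagonal.mem_antidiagonal] at hp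
    have hd : m.degree = p.1.degree + p.2.degree := by rw [← hp, map_add]
    rw [coeff_n1ExpL_of_le hn hG f (N := N) (by omega),
      coeff_n1ExpL_of_le hn hG g (N := N) (by omega)]
  rw [h1, Finset.sum_mul_sum, ← Finset.sum_product', map_sum, map_sum, ← hN]
  -- the terms of large order vanish
  have h2 : ∀ p : ℕ × ℕ, N < p.1 + p.2 → coeff m (n1Pow G p.1 f * n1Pow G p.2 g) = 0 := by
    intro p hp
    refine ((n1Pow_low hG p.1 (n1_zero_low f)).mul (n1Pow_low hG p.2 (n1_zero_low g))) m ?_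
    have h3 : p.1 * 1 ≤ p.1 * n := Nat.mul_le_mul_left _ hn
    have h4 : p.2 * 1 ≤ p.2 * n := Nat.mul_le_mul_left _ hn
    omega
  have h3 : ∑ p ∈ Finset.range (N + 1) ×ˢ Finset.range (N + 1),
      coeff m (n1Pow G p.1 f * n1Pow G p.2 g) =
      ∑ p ∈ (Finset.range (N + 1) ×ˢ Finset.range (N + 1)).filter (fun p => p.1 + p.2 < N + 1),
        coeff m (n1Pow G p.1 f * n1Pow G p.2 g) := by
    rw [Finset.sum_filter_of_ne]
    intro p _ hne
    by_contra hlt
    exact hne (h2 p (by omega))
  rw [h3, ← Finset.sum_fiberwise_of_maps_to (t := Finset.range (N + 1))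
    (g := fun p : ℕ × ℕ => p.1 + p.2) (fun p hp => by
      rw [Finset.mem_filter] at hp
      exact Finset.mem_range.2 hp.2)]
  refine Finset.sum_congr rfl fun k hk => ?_
  rw [Finset.mem_range] at hk
  rw [n1Pow_mul, map_sum]
  refine Finset.sum_congr ?_ fun _ _ => rfl
  ext p
  rw [Finset.HasAntidiagonal.mem_antidiagonal, Finset.mem_filter, Finset.mem_filter, Finset.mem_product,
    Finset.mem_range, Finset.mem_range]
  constructor
  · intro h
    exact ⟨⟨⟨by omega, by omega⟩, by omega⟩, h⟩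
  · intro h
    exact h.2

theorem n1ExpL_one : n1ExpL G (1 : MvPowerSeries (Fin 2) K) = 1 := by
  ext m
  rw [coeff_n1ExpL, Finset.sum_range_succ', n1Pow_zero]
  rw [Finset.sum_eq_zero, zero_add]
  intro k _
  rw [n1Pow_one_right, map_zero]

/-- The exponential of a derivation which raises the order, as an endomorphism. -/
noncomputable def n1Exp {n : ℕ} (hn : 0 < n) (hG : ∀ k f, N1Low k f → N1Low (k + n) (G f)) :
    MvPowerSeries (Fin 2) K →ₐ[ℂ] MvPowerSeries (Fin 2) K :=
  AlgHom.ofLinearMap (n1ExpL G) n1ExpL_one (n1ExpL_mul hn hG)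

theorem n1Exp_apply {n : ℕ} (hn : 0 < n) (hG : ∀ k f, N1Low k f → N1Low (k + n) (G f))
    (f : MvPowerSeries (Fin 2) K) : n1Exp hn hG f = n1ExpL G f := rfl

/-- The first terms of the exponential. -/
theorem coeff_n1Exp_of_lt {n : ℕ} (hn : 0 < n) (hG : ∀ k f, N1Low k f → N1Low (k + n) (G f))
    (f : MvPowerSeries (Fin 2) K) {m : Fin 2 →₀ ℕ} (hm : m.degree < n) :
    coeff m (n1Exp hn hG f) = coeff m f := by
  rw [n1Exp_apply, coeff_n1ExpL, Finset.sum_range_succ', n1Pow_zero, Finset.sum_eq_zero, zero_add]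
  intro k _
  refine n1Pow_low hG (k + 1) (n1_zero_low f) m ?_
  rw [Nat.succ_mul]
  omega

theorem coeff_n1Exp_of_eq {n : ℕ} (hn : 0 < n) (hG : ∀ k f, N1Low k f → N1Low (k + n) (G f))
    (f : MvPowerSeries (Fin 2) K) {m : Fin 2 →₀ ℕ} (hm : m.degree = n) :
    coeff m (n1Exp hn hG f) = coeff m f + coeff m (G f) := by
  rw [n1Exp_apply, coeff_n1ExpL_of_le hn hG f (N := n + 1) (by omega), map_sum,
    Finset.sum_range_succ', Finset.sum_range_succ', n1Pow_zero]
  have h1 : n1Pow G (0 + 1) f = G f := n1Pow_one G f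
  rw [h1, Finset.sum_eq_zero, zero_add, add_comm]
  intro k _
  refine n1Pow_low hG (k + 1 + 1) (n1_zero_low f) m ?_
  rw [Nat.succ_mul, Nat.succ_mul]
  omega

/-- A coefficientwise property of the terms is inherited by the exponential. -/
theorem coeff_n1Exp_eq_zero {n : ℕ} (hn : 0 < n) (hG : ∀ k f, N1Low k f → N1Low (k + n) (G f))
    {T : Set (Fin 2 →₀ ℕ)} (hT : ∀ f : MvPowerSeries (Fin 2) K, (∀ m ∈ T, coeff m f = 0) →
      ∀ m ∈ T, coeff m (G f) = 0) {f : MvPowerSeries (Fin 2) K} (hf : ∀ m ∈ T, coeff m f = 0)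
    {m : Fin 2 →₀ ℕ} (hm : m ∈ T) : coeff m (n1Exp hn hG f) = 0 := by
  rw [n1Exp_apply, coeff_n1ExpL]
  refine Finset.sum_eq_zero fun k _ => ?_
  have key : ∀ k, ∀ m ∈ T, coeff m (n1Pow G k f) = 0 := by
    intro k
    induction k with
    | zero => exact hf
    | succ k ih =>
      intro m hm
      change (k + 1 : ℂ)⁻¹ • coeff m (G (n1Pow G k f)) = 0
      rw [hT _ ih m hm, smul_zero]
  exact key k m hm

/-- Coefficients which `G` kills are not changed. -/
theorem coeff_n1Exp_of_kill {n : ℕ} (hn : 0 < n) (hG : ∀ k f, N1Low k f → N1Low (k + n) (G f))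
    {m : Fin 2 →₀ ℕ} (hT : ∀ f : MvPowerSeries (Fin 2) K, coeff m (G f) = 0)
    (f : MvPowerSeries (Fin 2) K) : coeff m (n1Exp hn hG f) = coeff m f := by
  rw [n1Exp_apply, coeff_n1ExpL, Finset.sum_range_succ', n1Pow_zero, Finset.sum_eq_zero, zero_add]
  intro k _
  change (k + 1 : ℂ)⁻¹ • coeff m (G (n1Pow G k f)) = 0
  rw [hT, smul_zero]

end exp

/-! ### derivations of the coefficient field -/

section der

variable {K : Type v} [Field K] [Algebra ℂ K]

/-- A derivation of `K` applied to the coefficients. -/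
noncomputable def n1Map (D : Derivation ℂ K K) :
    Derivation ℂ (MvPowerSeries (Fin 2) K) (MvPowerSeries (Fin 2) K) :=
  Derivation.mk'
    { toFun := fun f => fun m => D (coeff m f)
      map_add' := fun f g => by
        ext m
        change D (coeff m (f + g)) = D (coeff m f) + D (coeff m g)
        rw [map_add, map_add]
      map_smul' := fun c f => by
        ext m
        change D (c • coeff m f) = c • D (coeff m f)
        rw [D.map_smul] } (fun f g => by
    classical
    ext m
    change D (coeff m (f * g)) = coeff m (f • (_ : MvPowerSeries (Fin 2) K) +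
      g • (_ : MvPowerSeries (Fin 2) K))
    rw [map_add, smul_eq_mul, smul_eq_mul, mul_comm g, coeff_mul, coeff_mul, coeff_mul, map_sum,
      ← Finset.sum_add_distrib]
    refine Finset.sum_congr rfl fun p _ => ?_
    rw [Derivation.leibniz, smul_eq_mul, smul_eq_mul]
    change _ = coeff p.1 f * D (coeff p.2 g) + D (coeff p.1 f) * coeff p.2 g
    ring)

theorem coeff_n1Map (D : Derivation ℂ K K) (f : MvPowerSeries (Fin 2) K) (m : Fin 2 →₀ ℕ) :
    coeff m (n1Map D f) = D (coeff m f) := rfl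

/-- The derivation `∑ x^e D_e`. -/
noncomputable def n1G (T : Finset (Fin 2 →₀ ℕ)) (D : (Fin 2 →₀ ℕ) → Derivation ℂ K K) :
    Derivation ℂ (MvPowerSeries (Fin 2) K) (MvPowerSeries (Fin 2) K) :=
  ∑ e ∈ T, (monomial e (1 : K) : MvPowerSeries (Fin 2) K) • n1Map (D e)

theorem coeff_n1G (T : Finset (Fin 2 →₀ ℕ)) (D : (Fin 2 →₀ ℕ) → Derivation ℂ K K)
    (f : MvPowerSeries (Fin 2) K) (m : Fin 2 →₀ ℕ) :
    coeff m (n1G T D f) = ∑ e ∈ T, if e ≤ m then D e (coeff (m - e) f) else 0 := by
  classical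
  have h1 : n1G T D f = ∑ e ∈ T, (monomial e (1 : K) : MvPowerSeries (Fin 2) K) *
      n1Map (D e) f := by
    rw [n1G]
    induction T using Finset.induction_on with
    | empty => simp
    | insert a T ha ih =>
      rw [Finset.sum_insert ha, Finset.sum_insert ha, Derivation.add_apply, ih,
        Derivation.smul_apply, smul_eq_mul]
  rw [h1, map_sum]
  refine Finset.sum_congr rfl fun e _ => ?_
  rw [coeff_monomial_mul]
  split_ifs with h
  · rw [one_mul, coeff_n1Map]
  · rfl

theorem n1G_low {T : Finset (Fin 2 →₀ ℕ)} {n : ℕ} (hT : ∀ e ∈ T, e.degree = n)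
    (D : (Fin 2 →₀ ℕ) → Derivation ℂ K K) (k : ℕ) (f : MvPowerSeries (Fin 2) K)
    (hf : N1Low k f) : N1Low (k + n) (n1G T D f) := by
  intro m hm
  rw [coeff_n1G]
  refine Finset.sum_eq_zero fun e he => ?_
  split_ifs with h
  · rw [hf, map_zero]
    obtain ⟨c, rfl⟩ := exists_add_of_le h
    rw [add_tsub_cancel_left]
    rw [map_add, hT e he] at hm
    omega
  · rfl

/-- The coefficients of degree `n`. -/
theorem coeff_n1G_of_eq {T : Finset (Fin 2 →₀ ℕ)} {n : ℕ} (hT : ∀ e ∈ T, e.degree = n)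
    (D : (Fin 2 →₀ ℕ) → Derivation ℂ K K) (f : MvPowerSeries (Fin 2) K) {m : Fin 2 →₀ ℕ}
    (hm : m.degree = n) : coeff m (n1G T D f) = if m ∈ T then D m (coeff 0 f) else 0 := by
  classical
  rw [coeff_n1G]
  have h1 : ∀ e ∈ T, (if e ≤ m then D e (coeff (m - e) f) else 0) =
      if e = m then D m (coeff 0 f) else 0 := by
    intro e he
    by_cases h : e ≤ m
    · obtain ⟨c, rfl⟩ := exists_add_of_le h
      have h2 : c.degree = 0 := by
        rw [map_add, hT e he] at hm
        omega
      have h3 : c = 0 := (Finsupp.degree_eq_zero_iff _).1 h2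
      rw [h3, add_zero, if_pos le_rfl, if_pos rfl, tsub_self]
    · rw [if_neg h, if_neg]
      rintro rfl
      exact h le_rfl
  rw [Finset.sum_congr rfl h1, Finset.sum_ite_eq']

end der

end Vale.Agent.P292
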