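import Vale.Agent.P292.MM.Chain2
import Vale.Agent.P292.K.C1H
import Vale.Agent.P292.K.C4
import Vale.Agent.P292.K.Q2S
import Vale.Agent.P292.Bdl.B7

/-! # Block N, part 3: the Liouville form at a point, in terms of homogeneous elements. -/

namespace Vale.Agent.P292

open MvPolynomial TensorProduct

universe u v w

variable {R : Type u} [CommRing R] [Algebra ℂ R] {𝒜 : ℕ → Submodule ℂ R} [GradedAlgebra 𝒜]
  {P : R →ₗ[ℂ] R →ₗ[ℂ] R}

/-- The Euler derivation is a combination of Hamiltonian ones. -/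
theorem n3_exists0 (hX : IsContactFano 𝒜 P) {E : Type v} [Field E] [Algebra ℂ E]
    {ν : R →ₐ[ℂ] E} (hν : IsNV 𝒜 ν) :
    ∃ (N : ℕ) (x : Fin N → R) (d : Fin N → ℕ) (h : Fin N → R) (g : R), (∀ l, x l ∈ 𝒜 (d l)) ∧
      ν g ≠ 0 ∧ ∀ s, g * euler 𝒜 s = ∑ l, h l * P (x l) s := by
  obtain ⟨k, hk, r, hr, hrν⟩ := hν
  obtain ⟨N, y, g, h, hF, hg⟩ := exists_frame_of_point hX ν hk hr hrν
  choose d hd using hF.homogeneous
  let D : Derivation ℂ R R := Derivation.mk' (euler 𝒜) (fun a b => by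
    rw [euler_mul, smul_eq_mul, smul_eq_mul]; ring)
  have hD : ∀ s, D s = euler 𝒜 s := fun _ => rfl
  refine ⟨N, y, d, fun j => ∑ i, g * (brMat P y).adjugate i j * euler 𝒜 (y i),
    g * (brMat P y).det, hd, hg, fun s => ?_⟩
  have h1 := hF.det_smul_derivation hX D s
  rw [smul_eq_mul, hD] at h1
  rw [h1, Finset.sum_comm]
  refine Finset.sum_congr rfl fun j _ => ?_
  rw [Finset.sum_mul]
  refine Finset.sum_congr rfl fun i _ => ?_
  rw [hD, smul_eq_mul]
  ring

/-- The Euler derivation is a combination of Hamiltonian ones, homogeneous version. -/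
theorem n3_exists (hX : IsContactFano 𝒜 P) {E : Type v} [Field E] [Algebra ℂ E]
    {ν : R →ₐ[ℂ] E} (hν : IsNV 𝒜 ν) :
    ∃ (N G : ℕ) (x : Fin N → R) (d : Fin N → ℕ) (h : Fin N → R) (e : Fin N → ℕ) (g : R),
      (∀ l, x l ∈ 𝒜 (d l)) ∧ (∀ l, h l ∈ 𝒜 (e l)) ∧ (∀ l, e l + d l = G + 1) ∧ g ∈ 𝒜 G ∧
      ν g ≠ 0 ∧ ∀ s, g * euler 𝒜 s = ∑ l, h l * P (x l) s := by
  classical
  obtain ⟨N, x, d, h, g, hx, hg, hid⟩ := n3_exists0 hX hν
  obtain ⟨G, hG⟩ : ∃ G, ν (DirectSum.decompose 𝒜 g G : R) ≠ 0 := by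
    by_contra hcon
    push Not at hcon
    apply hg
    rw [← DirectSum.sum_support_decompose 𝒜 g, map_sum]
    exact Finset.sum_eq_zero fun k _ => hcon k
  refine ⟨N, G, fun l => if d l ≤ G + 1 then x l else 0, fun l => if d l ≤ G + 1 then d l else 0,
    fun l => if d l ≤ G + 1 then (DirectSum.decompose 𝒜 (h l) (G + 1 - d l) : R) else 0,
    fun l => if d l ≤ G + 1 then G + 1 - d l else G + 1, (DirectSum.decompose 𝒜 g G : R),
    fun l => ?_, fun l => ?_, fun l => ?_, SetLike.coe_mem _, hG, fun s => ?_⟩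
  · dsimp only
    split_ifs
    · exact hx l
    · exact Submodule.zero_mem _
  · dsimp only
    split_ifs
    · exact SetLike.coe_mem _
    · exact Submodule.zero_mem _
  · dsimp only
    split_ifs <;> omega
  · refine forall_of_homogeneous' (𝒜 := 𝒜)
      (LinearMap.mulLeft ℂ (DirectSum.decompose 𝒜 g G : R) ∘ₗ euler 𝒜)
      (∑ l, LinearMap.mulLeft ℂ
        (if d l ≤ G + 1 then (DirectSum.decompose 𝒜 (h l) (G + 1 - d l) : R) else 0) ∘ₗ
        P (if d l ≤ G + 1 then x l else 0)) (fun k s hs => ?_) s |>.trans (by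
          simp [LinearMap.sum_apply])
    simp only [LinearMap.comp_apply, LinearMap.mulLeft_apply, LinearMap.sum_apply]
    have h1 := congrArg (fun z : R => (DirectSum.decompose 𝒜 z (G + k) : R)) (hid s)
    dsimp only at h1
    rw [DirectSum.coe_decompose_mul_add_of_right_mem 𝒜 (by
      rw [euler_apply k s hs]; exact Submodule.smul_mem _ _ hs), DirectSum.decompose_sum,
      DirectSum.sum_apply, AddSubmonoidClass.coe_finsetSum] at h1
    rw [h1]
    refine Finset.sum_congr rfl fun l _ => ?_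
    rcases Nat.eq_zero_or_pos (d l + k) with h0 | h0
    · have hl : d l = 0 := by omega
      have hk : k = 0 := by omega
      obtain ⟨c, hc⟩ := hX.connected s (by rw [← hk]; exact hs)
      rw [hc, hX.P_algebraMap_right, hX.P_algebraMap_right, mul_zero, mul_zero,
        DirectSum.decompose_zero]
      simp
    · have h2 : P (x l) s ∈ 𝒜 (d l + k - 1) := hX.degree (d l) k _ (by omega) _ (hx l) _ hs
      by_cases h3 : d l ≤ G + 1
      · rw [if_pos h3, if_pos h3]
        have h4 : G + k = (G + 1 - d l) + (d l + k - 1) := by omega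
        rw [h4, DirectSum.coe_decompose_mul_add_of_right_mem 𝒜 h2]
      · rw [if_neg h3, if_neg h3, zero_mul]
        exact DirectSum.coe_decompose_mul_of_right_mem_of_not_le 𝒜 h2 (by omega)

/-- The differential of the Liouville form, in `R`. -/
theorem n3_star (hX : IsContactFano 𝒜 P) {N : ℕ} {x h : Fin N → R} {g : R}
    (hid : ∀ s, g * euler 𝒜 s = ∑ l, h l * P (x l) s) (a b : R) :
    g * P a b = - euler 𝒜 a * P g b - euler 𝒜 b * P a g +
      ∑ l, (P (x l) a * P (h l) b + P (x l) b * P a (h l)) := by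
  have h1 := hid (P a b)
  rw [zb5_euler_P hX] at h1
  have hl : ∀ u v t, P (u * v) t = u * P v t + v * P u t := by
    intro u v t
    rw [hX.skew (u * v) t, hX.leibniz, hX.skew t u, hX.skew t v]
    ring
  have h2 : P (g * euler 𝒜 a) b = ∑ l, (h l * P (P (x l) a) b + P (x l) a * P (h l) b) := by
    rw [hid a, map_sum, LinearMap.sum_apply]
    exact Finset.sum_congr rfl fun l _ => hl _ _ _
  have h3 : P a (g * euler 𝒜 b) = ∑ l, (P a (h l) * P (x l) b + h l * P a (P (x l) b)) := by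
    rw [hid b, map_sum]
    exact Finset.sum_congr rfl fun l _ => hX.leibniz _ _ _
  rw [hl] at h2
  rw [hX.leibniz] at h3
  have h4 : ∑ l, h l * P (x l) (P a b) =
      ∑ l, (h l * P (P (x l) a) b + h l * P a (P (x l) b)) :=
    Finset.sum_congr rfl fun l _ => by rw [hX.jacobi]; ring
  rw [h4] at h1
  simp only [Finset.sum_add_distrib] at h1 h2 h3 ⊢
  have h5 : ∑ l, P (x l) b * P a (h l) = ∑ l, P a (h l) * P (x l) b :=
    Finset.sum_congr rfl fun l _ => mul_comm _ _
  rw [h5]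
  linear_combination (-1 : R) * h1 + h2 + h3

/-- The differential of the Liouville form, at a point. -/
theorem n3_pair (hX : IsContactFano 𝒜 P) {E : Type v} [Field E] [Algebra ℂ E]
    {ν : R →ₐ[ℂ] E} (hν : IsNV 𝒜 ν) {N : ℕ} {x h : Fin N → R} {g : R}
    (hid : ∀ s, g * euler 𝒜 s = ∑ l, h l * P (x l) s) {δ₁ δ₂ : R →ₗ[ℂ] E}
    (h1 : IsDer ν δ₁) (h2 : IsDer ν δ₂)
    (hE1 : om P ν δ₁ (ν.toLinearMap ∘ₗ euler 𝒜) = 0)
    (hE2 : om P ν δ₂ (ν.toLinearMap ∘ₗ euler 𝒜) = 0) :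
    ν g * om P ν δ₁ δ₂ = ∑ l, (δ₁ (h l) * δ₂ (x l) - δ₂ (h l) * δ₁ (x l)) := by
  have hE : IsDer ν (ν.toLinearMap ∘ₗ euler 𝒜) := fun r s => by
    simp only [LinearMap.comp_apply, AlgHom.toLinearMap_apply, euler_mul, map_add, map_mul]
    ring
  obtain ⟨M, u, hu⟩ := exists_ham_rep hX hν
  obtain ⟨a, ha⟩ := hu δ₁ h1
  obtain ⟨b, hb⟩ := hu δ₂ h2
  rw [om_eq hX hν hE ha] at hE1
  rw [om_eq hX hν hE hb] at hE2
  rw [om_eq hX hν h2 ha]
  simp only [LinearMap.comp_apply, AlgHom.toLinearMap_apply] at hE1 hE2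
  have hs : ∀ (c : Fin M → E) (δ : R →ₗ[ℂ] E) (_ : ∀ s, δ s = ∑ i, c i * ν (P (u i) s)) (s : R),
      ∑ i, c i * ν (P s (u i)) = - δ s := by
    intro c δ hc s
    rw [hc, ← Finset.sum_neg_distrib]
    refine Finset.sum_congr rfl fun i _ => ?_
    rw [hX.skew s (u i), map_neg]
    ring
  have step1 : ∀ t, ν g * δ₂ t = - ν (euler 𝒜 t) * δ₂ g +
      ∑ l, (ν (P (x l) t) * δ₂ (h l) - ν (P (h l) t) * δ₂ (x l)) := by
    intro t
    have e1 : ν g * δ₂ t = ∑ j, b j * (ν g * ν (P (u j) t)) := by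
      rw [hb, Finset.mul_sum]
      exact Finset.sum_congr rfl fun j _ => by ring
    have e2 : ∀ j, ν g * ν (P (u j) t) = - ν (euler 𝒜 (u j)) * ν (P g t) -
        ν (euler 𝒜 t) * ν (P (u j) g) + ∑ l, (ν (P (x l) (u j)) * ν (P (h l) t) +
          ν (P (x l) t) * ν (P (u j) (h l))) := by
      intro j
      have := congrArg ν (n3_star hX hid (u j) t)
      simpa only [map_add, map_sub, map_mul, map_neg, map_sum] using this
    rw [e1]
    simp only [e2, mul_add, mul_sub, Finset.sum_add_distrib, Finset.sum_sub_distrib,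
      Finset.mul_sum]
    have e3 : ∑ j, b j * (- ν (euler 𝒜 (u j)) * ν (P g t)) = 0 := by
      rw [show (∑ j, b j * (- ν (euler 𝒜 (u j)) * ν (P g t))) =
        - (∑ j, b j * ν (euler 𝒜 (u j))) * ν (P g t) by
          rw [← Finset.sum_neg_distrib, Finset.sum_mul]
          exact Finset.sum_congr rfl fun j _ => by ring, hE2, neg_zero, zero_mul]
    have e4 : ∑ j, b j * (ν (euler 𝒜 t) * ν (P (u j) g)) = ν (euler 𝒜 t) * δ₂ g := by
      rw [hb g, Finset.mul_sum]
      exact Finset.sum_congr rfl fun j _ => by ring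
    have e5 : ∑ j, ∑ l, b j * (ν (P (x l) (u j)) * ν (P (h l) t)) =
        - ∑ l, ν (P (h l) t) * δ₂ (x l) := by
      rw [Finset.sum_comm, ← Finset.sum_neg_distrib]
      refine Finset.sum_congr rfl fun l _ => ?_
      have := hs b δ₂ hb (x l)
      rw [show (∑ j, b j * (ν (P (x l) (u j)) * ν (P (h l) t))) =
        (∑ j, b j * ν (P (x l) (u j))) * ν (P (h l) t) by
          rw [Finset.sum_mul]; exact Finset.sum_congr rfl fun j _ => by ring, this]
      ring
    have e6 : ∑ j, ∑ l, b j * (ν (P (x l) t) * ν (P (u j) (h l))) =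
        ∑ l, ν (P (x l) t) * δ₂ (h l) := by
      rw [Finset.sum_comm]
      refine Finset.sum_congr rfl fun l _ => ?_
      rw [hb (h l), Finset.mul_sum]
      exact Finset.sum_congr rfl fun j _ => by ring
    rw [e3, e4, e5, e6]
    ring
  have e1 : ν g * ∑ i, a i * δ₂ (u i) = ∑ i, a i * (ν g * δ₂ (u i)) := by
    rw [Finset.mul_sum]
    exact Finset.sum_congr rfl fun j _ => by ring
  rw [e1]
  simp only [step1, mul_add, mul_sub, Finset.sum_add_distrib, Finset.sum_sub_distrib,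
      Finset.mul_sum]
  have e3 : ∑ i, a i * (- ν (euler 𝒜 (u i)) * δ₂ g) = 0 := by
    rw [show (∑ j, a j * (- ν (euler 𝒜 (u j)) * δ₂ g)) =
      - (∑ j, a j * ν (euler 𝒜 (u j))) * δ₂ g by
        rw [← Finset.sum_neg_distrib, Finset.sum_mul]
        exact Finset.sum_congr rfl fun j _ => by ring, hE1, neg_zero, zero_mul]
  have e5 : ∑ i, ∑ l, a i * (ν (P (x l) (u i)) * δ₂ (h l)) = - ∑ l, δ₂ (h l) * δ₁ (x l) := by
    rw [Finset.sum_comm, ← Finset.sum_neg_distrib]
    refine Finset.sum_congr rfl fun l _ => ?_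
    rw [show (∑ j, a j * (ν (P (x l) (u j)) * δ₂ (h l))) =
      (∑ j, a j * ν (P (x l) (u j))) * δ₂ (h l) by
        rw [Finset.sum_mul]; exact Finset.sum_congr rfl fun j _ => by ring, hs a δ₁ ha (x l)]
    ring
  have e6 : ∑ i, ∑ l, a i * (ν (P (h l) (u i)) * δ₂ (x l)) = - ∑ l, δ₁ (h l) * δ₂ (x l) := by
    rw [Finset.sum_comm, ← Finset.sum_neg_distrib]
    refine Finset.sum_congr rfl fun l _ => ?_
    rw [show (∑ j, a j * (ν (P (h l) (u j)) * δ₂ (x l))) =
      (∑ j, a j * ν (P (h l) (u j))) * δ₂ (x l) by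
        rw [Finset.sum_mul]; exact Finset.sum_congr rfl fun j _ => by ring, hs a δ₁ ha (h l)]
    ring
  rw [e3, e5, e6]
  ring

end Vale.Agent.P292
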